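import Vale.Agent.P140.H119.Main

/-!
# P140: the bootstrap of the ignition, with the bound of the hot part by the Gaussian profile
-/

set_option linter.all false

open MeasureTheory Set Filter
open scoped ENNReal Topology Interval

noncomputable section

namespace Vale.Agent.P140.NU

variable {P : Par} {CB t0 : ℝ} {n N : ℕ} {κ : ℝ} {F G h : ℝ → T3 → V → ℝ}

theorem h725_core (hc : 1 ≤ P.c) (hl : 0 < P.lam) (hLam : 3 ≤ P.Lam) (ht0 : 0 < t0) (hN : 3 ≤ N)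
    (hs : Split P CB t0 n N κ F G h) {Ca C2 ε1 ε2 η ε' m0 : ℝ} (hCa : 0 < Ca) (hC2 : 0 < C2)
    (hη : 0 < η)
    (mw : Measurable fun p : ℝ × T3 × V => wt P n (2 * t0) p.1 p.2.1 p.2.2)
    (hw : ∀ t ∈ Icc 0 (2 * t0), ∀ x v, 0 ≤ wt P n (2 * t0) t x v ∧ wt P n (2 * t0) t x v ≤ 1)
    (hPi : ∀ γ, ∀ t ∈ Icc 0 (2 * t0), ∀ t' ∈ Icc t (2 * t0), ∀ x v,
      Pi P n γ t x v ≤ Pi P n γ t' (mv x v (t' - t)) v)
    (hinit : ∀ x v, ENNReal.ofReal (h 0 x v) ≤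
      ENNReal.ofReal (3 / 4 * Hh P n (2 * t0) Ca h 0) * Pi P n (1 / 6) 0 x v)
    (himp : ∀ t1 ∈ Icc 0 t0,
      (∀ τ ∈ Icc 0 t1, ∀ x v, ENNReal.ofReal (h τ x v) ≤
        ENNReal.ofReal (Hh P n (2 * t0) Ca h τ) * Pi P n (gam P n (2 * t0) Ca C2 h τ) τ x v) →
      (∀ τ ∈ Icc 0 t1, 0 < NN P n (2 * t0) h τ ∧
        4 * NE P n (2 * t0) h τ ≤ NN P n (2 * t0) h τ) →
      Grows P n (2 * t0) h t1 →
      (∫ τ in (0 : ℝ)..t1, (1 + Hh P n (2 * t0) Ca h τ) ≤ ε1) →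
      ∀ x v, ENNReal.ofReal (h t1 x v) ≤ ENNReal.ofReal (3 / 4 * Hh P n (2 * t0) Ca h t1) *
        Pi P n (gam P n (2 * t0) Ca C2 h t1) t1 x v)
    (hgro : ∀ t1 ∈ Icc 0 t0,
      (∀ τ ∈ Icc 0 t1, ∀ x v, ENNReal.ofReal (h τ x v) ≤
        ENNReal.ofReal (Ca * NN P n (2 * t0) h τ / P.TT n τ ^ 2) * Pi P n (1 / 8) τ x v) →
      (∀ τ ∈ Icc 0 t1, NN P n (2 * t0) h τ ≤ ε2 * P.TT n τ) →
      (∫ τ in (0 : ℝ)..t1, NN P n (2 * t0) h τ / P.TT n τ ^ 2 ≤ ε2) →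
      (∀ τ ∈ Icc 0 t1, 0 < NN P n (2 * t0) h τ ∧
        4 * NE P n (2 * t0) h τ ≤ NN P n (2 * t0) h τ) ∧
      (∀ τ ∈ Icc 0 t1, ∀ τ' ∈ Icc τ t1,
        NN P n (2 * t0) h τ * (P.TT n τ' / P.TT n τ) ^ (P.Lam - 1) ≤ NN P n (2 * t0) h τ'))
    (hMP : ∀ τ ∈ Icc 0 t0, (∀ x v, ENNReal.ofReal (h τ x v) ≤
        ENNReal.ofReal (Ca * NN P n (2 * t0) h τ / P.TT n τ ^ 2) * Pi P n (1 / 8) τ x v) →
      NN P n (2 * t0) h τ ≤ 2 * MP P n (2 * t0) m0 h τ)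
    (hm : ∀ τ ∈ Icc 0 t0, MP P n (2 * t0) m0 h τ ≤ ε' * P.TT n τ)
    (k1 : 2 * ε' ≤ ε2) (k2 : 4 * ε' ≤ η) (k3 : η ≤ ε2) (k4 : C2 * (t0 + Ca * η) ≤ 1 / 24)
    (k5 : t0 + Ca * η ≤ ε1) :
    (Grows P n (2 * t0) h t0 ∧ ∀ τ ∈ Icc 0 t0, 0 < NN P n (2 * t0) h τ ∧
      NN P n (2 * t0) h τ ≤ 2 * MP P n (2 * t0) m0 h τ) ∧
    ∀ τ ∈ Icc 0 t0, ∀ x v, ENNReal.ofReal (h τ x v) ≤
      ENNReal.ofReal (Ca * NN P n (2 * t0) h τ / P.TT n τ ^ 2) * Pi P n (1 / 8) τ x v := by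
  have hT : ∀ t, 0 ≤ t → 0 < P.TT n t := fun t ht => bt_TT_pos hc hl n ht
  have hNc := bt_NN_cont hc hl hN hs (te := 2 * t0) (T := t0) (by linarith only [ht0]) (by linarith only [ht0]) mw hw
  set Nf : ℝ → ℝ := fun t => NN P n (2 * t0) h t with hNf
  have hNN : ∀ t, NN P n (2 * t0) h t = Nf t := fun t => rfl
  have hN0 : ∀ t ∈ Icc 0 t0, 0 ≤ Nf t := fun t ht =>
    integral_nonneg fun p => mul_nonneg (hw t ⟨ht.1, by linarith only [ht0, ht.2]⟩ p.1 p.2).1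
      (hs.nonnegh t p.1 p.2)
  set r : ℝ → ℝ := fun t => Nf t / P.TT n t ^ 2 with hr
  have hTc : Continuous fun t => P.TT n t := by unfold Par.TT; fun_prop
  have hrc : ContinuousOn r (Icc 0 t0) := hNc.div (hTc.pow 2).continuousOn
    fun t ht => (pow_pos (hT t ht.1) 2).ne'
  have hr0 : ∀ t ∈ Icc 0 t0, 0 ≤ r t := fun t ht => div_nonneg (hN0 t ht) (sq_nonneg _)
  have hri : ∀ a ∈ Icc 0 t0, ∀ b ∈ Icc 0 t0, IntervalIntegrable r volume a b := fun a ha b hb =>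
    (hrc.mono (uIcc_subset_Icc ha hb)).intervalIntegrable
  have h00 : (0 : ℝ) ∈ Icc 0 t0 := ⟨le_rfl, ht0.le⟩
  set H : ℝ → ℝ := fun t => Hh P n (2 * t0) Ca h t with hH
  have hHr : ∀ t, H t = Ca * r t := fun t => by
    rw [hH, hr]; simp only [Hh]; rw [hNN, mul_div_assoc]
  have hHc : ContinuousOn H (Icc 0 t0) := (continuousOn_const.mul hrc).congr fun t _ => hHr t
  have hH0 : ∀ t ∈ Icc 0 t0, 0 ≤ H t := fun t ht => by
    rw [hHr]; exact mul_nonneg hCa.le (hr0 t ht)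
  set J : ℝ → ℝ := fun t => ∫ s in (0 : ℝ)..t, r s with hJ
  have hJm : ∀ a ∈ Icc 0 t0, ∀ b ∈ Icc a t0, J a ≤ J b := by
    intro a ha b hb
    have hb' : b ∈ Icc 0 t0 := ⟨ha.1.trans hb.1, hb.2⟩
    have e1 : J b - J a = ∫ s in a..b, r s :=
      intervalIntegral.integral_interval_sub_left (hri 0 h00 b hb') (hri 0 h00 a ha)
    have e2 : 0 ≤ ∫ s in a..b, r s := intervalIntegral.integral_nonneg hb.1 fun u hu =>
      hr0 u ⟨ha.1.trans hu.1, hu.2.trans hb.2⟩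
    linarith only [e1, e2]
  have hJc : ContinuousOn J (Icc 0 t0) := by
    have h0 := hri 0 h00 t0 ⟨ht0.le, le_rfl⟩
    rw [intervalIntegrable_iff'] at h0
    have := intervalIntegral.continuousOn_primitive_interval h0
    rwa [uIcc_of_le ht0.le] at this
  have hJ0 : J 0 = 0 := intervalIntegral.integral_same
  have hI : ∀ t ∈ Icc 0 t0, ∫ s in (0 : ℝ)..t, (1 + Hh P n (2 * t0) Ca h s) = t + Ca * J t := by
    intro t ht
    have e1 : ∫ s in (0 : ℝ)..t, (1 + Hh P n (2 * t0) Ca h s) = ∫ s in (0 : ℝ)..t, (1 + Ca * r s) := by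
      refine intervalIntegral.integral_congr fun s _ => ?_
      have := hHr s
      simp only [hH] at this
      simp only [this]
    rw [e1, intervalIntegral.integral_add (by simp) ((hri 0 h00 t ht).const_mul Ca),
      intervalIntegral.integral_const_mul]
    simp [hJ]
  set g : ℝ → ℝ := fun t => gam P n (2 * t0) Ca C2 h t with hg
  have hgJ : ∀ t ∈ Icc 0 t0, g t = 1 / 6 - C2 * (t + Ca * J t) := by
    intro t ht
    rw [hg]
    simp only [gam]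
    rw [hI t ht]
  have hgm : ∀ a ∈ Icc 0 t0, ∀ b ∈ Icc a t0, g b ≤ g a := by
    intro a ha b hb
    have hb' : b ∈ Icc 0 t0 := ⟨ha.1.trans hb.1, hb.2⟩
    rw [hgJ a ha, hgJ b hb']
    have h1 := hJm a ha b hb
    have h2 : C2 * (a + Ca * J a) ≤ C2 * (b + Ca * J b) := by
      have := hb.1
      (clear * - this h1 hCa hC2; gcongr)
    linarith only [h2]
  have hg0 : g 0 = 1 / 6 := by
    rw [hgJ 0 h00, hJ0]; ring
  have hg6 : ∀ t ∈ Icc 0 t0, g t ≤ 1 / 6 := fun t ht => by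
    rw [← hg0]; exact hgm 0 h00 t ht
  have himp : ∀ t1 ∈ Icc 0 t0,
      (∀ τ ∈ Icc 0 t1, ∀ x v, ENNReal.ofReal (h τ x v) ≤
        ENNReal.ofReal (H τ) * Pi P n (g τ) τ x v) →
      (∀ τ ∈ Icc 0 t1, 0 < Nf τ ∧ 4 * NE P n (2 * t0) h τ ≤ Nf τ) →
      (∀ τ ∈ Icc 0 t1, ∀ τ' ∈ Icc τ t1,
        Nf τ * (P.TT n τ' / P.TT n τ) ^ (P.Lam - 1) ≤ Nf τ') →
      (∫ τ in (0 : ℝ)..t1, (1 + Hh P n (2 * t0) Ca h τ) ≤ ε1) →
      ∀ x v, ENNReal.ofReal (h t1 x v) ≤ ENNReal.ofReal (3 / 4 * H t1) *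
        Pi P n (g t1) t1 x v := himp
  have hinit : ∀ x v, ENNReal.ofReal (h 0 x v) ≤
      ENNReal.ofReal (3 / 4 * H 0) * Pi P n (g 0) 0 x v := by
    rw [hg0]; exact hinit
  -- the improvement
  have improve : ∀ t ∈ Icc 0 t0,
      (∀ τ ∈ Icc 0 t, ∀ x v, ENNReal.ofReal (h τ x v) ≤
        ENNReal.ofReal (H τ) * Pi P n (g τ) τ x v) → J t ≤ η →
      (∀ τ ∈ Icc 0 t, 0 < Nf τ ∧ Nf τ ≤ 2 * MP P n (2 * t0) m0 h τ) ∧
      (∀ τ ∈ Icc 0 t, ∀ τ' ∈ Icc τ t,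
        Nf τ * (P.TT n τ' / P.TT n τ) ^ (P.Lam - 1) ≤ Nf τ') ∧
      J t ≤ 2 * ε' ∧
      (∀ τ ∈ Icc 0 t, ∀ x v, ENNReal.ofReal (h τ x v) ≤
        ENNReal.ofReal (3 / 4 * H τ) * Pi P n (g τ) τ x v) := by
    intro t ht hA hB
    have hsub : ∀ τ ∈ Icc 0 t, τ ∈ Icc 0 t0 := fun τ hτ => ⟨hτ.1, hτ.2.trans ht.2⟩
    have hJle : ∀ τ ∈ Icc 0 t, J τ ≤ η := fun τ hτ =>
      (hJm τ (hsub τ hτ) t ⟨hτ.2, ht.2⟩).trans hB
    have hg8 : ∀ τ ∈ Icc 0 t, 1 / 8 ≤ g τ := by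
      intro τ hτ
      rw [hgJ τ (hsub τ hτ)]
      have h1 := hJle τ hτ
      have h2 : C2 * (τ + Ca * J τ) ≤ C2 * (t0 + Ca * η) := by
        have := (hsub τ hτ).2
        (clear * - this h1 hCa hC2; gcongr)
      linarith only [k4, h2]
    have h18 : ∀ τ ∈ Icc 0 t, ∀ x v, ENNReal.ofReal (h τ x v) ≤
        ENNReal.ofReal (Ca * NN P n (2 * t0) h τ / P.TT n τ ^ 2) * Pi P n (1 / 8) τ x v := by
      intro τ hτ x v
      refine (hA τ hτ x v).trans ?_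
      have e : Ca * NN P n (2 * t0) h τ / P.TT n τ ^ 2 = H τ := rfl
      rw [e]
      exact mul_le_mul' le_rfl (bt_Pi_anti n (hg8 τ hτ) τ x v)
    have h2 : ∀ τ ∈ Icc 0 t, Nf τ ≤ 2 * MP P n (2 * t0) m0 h τ := fun τ hτ =>
      hMP τ (hsub τ hτ) (h18 τ hτ)
    have h3 : ∀ τ ∈ Icc 0 t, Nf τ ≤ 2 * ε' * P.TT n τ := fun τ hτ => by
      have := hm τ (hsub τ hτ)
      have := h2 τ hτ
      (clear hLam hN ε2 hη mw hPi k1 k2 k3 k5 hNf hgro hHc hH0 hJc hJ0 hgm hg0 hg6 himp hinit; linarith)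
    have h4 := hgro t ht h18 (fun τ hτ => by
      refine (h3 τ hτ).trans ?_
      exact mul_le_mul_of_nonneg_right k1 (hT τ hτ.1).le) (hB.trans k3)
    obtain ⟨h5, h6⟩ := h4
    have h7 : ∀ τ ∈ Icc 0 t, r τ ≤ Nf t / P.TT n t ^ 2 := by
      intro τ hτ
      have h8 := h6 τ hτ t ⟨hτ.2, le_rfl⟩
      have p1 := hT τ hτ.1
      have p2 := hT t ht.1
      have h9 : 1 ≤ P.TT n t / P.TT n τ := by
        rw [one_le_div p1]
        unfold Par.TT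
        linarith only [hτ.2]
      have h10 : (P.TT n t / P.TT n τ) ^ (2 : ℝ) ≤ (P.TT n t / P.TT n τ) ^ (P.Lam - 1) :=
        Real.rpow_le_rpow_of_exponent_le h9 (by linarith only [hLam])
      rw [Real.rpow_two] at h10
      have h11 : Nf τ * (P.TT n t / P.TT n τ) ^ 2 ≤ Nf t :=
        (mul_le_mul_of_nonneg_left h10 (hN0 τ (hsub τ hτ))).trans h8
      rw [le_div_iff₀ (by (clear * - p2; positivity))]
      refine le_trans (le_of_eq ?_) h11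
      simp only [hr]
      (clear * - p2 p1; field_simp)
    have h8 : J t ≤ 2 * ε' := by
      have p2 := hT t ht.1
      have h9 : J t ≤ ∫ _ in (0 : ℝ)..t, Nf t / P.TT n t ^ 2 :=
        intervalIntegral.integral_mono_on ht.1 (hri 0 h00 t ht) (by simp) h7
      rw [intervalIntegral.integral_const, smul_eq_mul, sub_zero] at h9
      refine h9.trans ?_
      have h10 := h3 t ⟨ht.1, le_rfl⟩
      have h11 : t ≤ P.TT n t := by
        have := bt_ss_pos hc hl n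
        unfold Par.TT; linarith only [this]
      have h12 := hN0 t ht
      calc t * (Nf t / P.TT n t ^ 2) ≤ P.TT n t * (Nf t / P.TT n t ^ 2) := by (clear * - h11 h12 p2; gcongr)
        _ = Nf t / P.TT n t := by (clear * - p2; field_simp)
        _ ≤ 2 * ε' := by rw [div_le_iff₀ p2]; exact h10
    refine ⟨fun τ hτ => ⟨(h5 τ hτ).1, h2 τ hτ⟩, h6, h8, fun τ hτ => ?_⟩
    refine himp τ (hsub τ hτ) (fun σ hσ => hA σ ⟨hσ.1, hσ.2.trans hτ.2⟩)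
      (fun σ hσ => h5 σ ⟨hσ.1, hσ.2.trans hτ.2⟩)
      (fun σ hσ σ' hσ' => h6 σ ⟨hσ.1, hσ.2.trans hτ.2⟩ σ' ⟨hσ'.1, hσ'.2.trans hτ.2⟩) ?_
    rw [hI τ (hsub τ hτ)]
    refine le_trans ?_ k5
    have := hJle τ hτ
    have := (hsub τ hτ).2
    (clear hLam hN ε2 ε' m0 hC2 hη mw hPi hMP hm k1 k2 k3 k4 k5 hNf hNN hgro hr H hH hHr hHc hH0 hJ hJc hJ0 hI g hg hgJ hgm hg0 hg6 himp hinit hA hg8 h18 h2 h3 h5 h6 h7 h8; gcongr)
  -- the step
  obtain ⟨B, hB, hbd, hlip⟩ := bt_lip hN hs t0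
  have step : ∀ s ∈ Icc 0 t0, ∀ t ∈ Icc s t0,
      (∀ x v, ENNReal.ofReal (h s x v) ≤ ENNReal.ofReal (3 / 4 * H s) * Pi P n (g s) s x v) →
      6 / 7 * H s ≤ H t →
      B * (t - s) ≤ 1 / 8 * H t * Real.exp (-(2 / P.ss n) - (N : ℝ) ^ 2 / 6) →
      ∀ x v, ENNReal.ofReal (h t x v) ≤ ENNReal.ofReal (H t) * Pi P n (g t) t x v := by
    intro s hs' t ht hb h1 h2
    have ht' : t ∈ Icc 0 t0 := ⟨hs'.1.trans ht.1, ht.2⟩
    exact bt_step hc hl (te := 2 * t0) (by linarith only [ht0]) hbd hlip hPi hs' ht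
      (hgm s hs' t ht) (hg6 t ht') hb (hH0 t ht') h1 h2
  -- the set
  set S : Set ℝ := {t | t ∈ Icc 0 t0 ∧ (∀ τ ∈ Icc 0 t, ∀ x v, ENNReal.ofReal (h τ x v) ≤
        ENNReal.ofReal (H τ) * Pi P n (g τ) τ x v) ∧ J t ≤ η} with hS
  have hdown : ∀ t ∈ S, ∀ s ∈ Icc 0 t, s ∈ S := by
    intro t ht s hs'
    refine ⟨⟨hs'.1, hs'.2.trans ht.1.2⟩, fun τ hτ => ht.2.1 τ ⟨hτ.1, hτ.2.trans hs'.2⟩, ?_⟩
    exact (hJm s ⟨hs'.1, hs'.2.trans ht.1.2⟩ t ⟨hs'.2, ht.1.2⟩).trans ht.2.2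
  have h0S : (0 : ℝ) ∈ S := by
    refine ⟨h00, fun τ hτ x v => ?_, by rw [hJ0]; exact hη.le⟩
    have : τ = 0 := le_antisymm hτ.2 hτ.1
    subst this
    refine (hinit x v).trans (mul_le_mul' (ENNReal.ofReal_le_ofReal ?_) le_rfl)
    linarith only [hH0 0 h00]
  have hbdd : BddAbove S := ⟨t0, fun t ht => ht.1.2⟩
  set c := sSup S with hcdef
  have hc0 : 0 ≤ c := le_csSup hbdd h0S
  have hct : c ≤ t0 := csSup_le ⟨0, h0S⟩ fun t ht => ht.1.2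
  have hlt : ∀ s ∈ Ico 0 c, s ∈ S := by
    intro s hs'
    obtain ⟨t, ht, hst⟩ := exists_lt_of_lt_csSup ⟨0, h0S⟩ hs'.2
    exact hdown t ht s ⟨hs'.1, hst.le⟩
  have himpS : ∀ t ∈ S, _ := fun t ht => improve t ht.1 ht.2.1 ht.2.2
  have hNpos0 : 0 < Nf 0 := ((himpS 0 h0S).1 0 ⟨le_rfl, le_rfl⟩).1
  have hE : 0 < Real.exp (-(2 / P.ss n) - (N : ℝ) ^ 2 / 6) := Real.exp_pos _
  have hHpos : ∀ t, 0 ≤ t → 0 < Nf t → 0 < H t := by
    intro t ht hn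
    rw [hHr]
    exact mul_pos hCa (div_pos hn (pow_pos (hT t ht) 2))
  have hcS : c ∈ S := by
    rcases hc0.eq_or_lt with h | hcpos
    · rw [← h]; exact h0S
    have hcI : c ∈ Icc 0 t0 := ⟨hc0, hct⟩
    have hfil : 𝓝[Ico 0 c] c ≤ 𝓝[Icc 0 t0] c :=
      nhdsWithin_mono c fun t ht => ⟨ht.1, ht.2.le.trans hct⟩
    have hne : (𝓝[Ico 0 c] c).NeBot := by
      rw [← mem_closure_iff_nhdsWithin_neBot, closure_Ico hcpos.ne]
      exact ⟨hc0, le_rfl⟩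
    have hJt : Tendsto J (𝓝[Ico 0 c] c) (𝓝 (J c)) := (hJc c hcI).mono_left hfil
    have hNt : Tendsto Nf (𝓝[Ico 0 c] c) (𝓝 (Nf c)) := (hNc c hcI).mono_left hfil
    have hHt : Tendsto H (𝓝[Ico 0 c] c) (𝓝 (H c)) := (hHc c hcI).mono_left hfil
    have hJη : J c ≤ η := le_of_tendsto hJt
      (eventually_mem_nhdsWithin.mono fun t ht => (hlt t ht).2.2)
    have hNcpos : Nf 0 ≤ Nf c := by
      refine ge_of_tendsto hNt (eventually_mem_nhdsWithin.mono fun t ht => ?_)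
      have h1 := (himpS t (hlt t ht)).2.1 0 ⟨le_rfl, ht.1⟩ t ⟨ht.1, le_rfl⟩
      refine le_trans ?_ h1
      have h2 : 1 ≤ (P.TT n t / P.TT n 0) ^ (P.Lam - 1) := by
        refine Real.one_le_rpow ?_ (by linarith only [hLam])
        rw [one_le_div (hT 0 le_rfl)]
        unfold Par.TT
        linarith only [ht.1]
      exact le_mul_of_one_le_right hNpos0.le h2
    have hHcpos : 0 < H c := hHpos c hc0 (hNpos0.trans_le hNcpos)
    have hev1 : ∀ᶠ s in 𝓝[Ico 0 c] c, H s < 7 / 6 * H c :=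
      hHt.eventually_lt_const (by linarith only [hHcpos])
    have hev2 : ∀ᶠ s in 𝓝[Ico 0 c] c,
        B * (c - s) < 1 / 8 * H c * Real.exp (-(2 / P.ss n) - (N : ℝ) ^ 2 / 6) := by
      have hcont : Continuous fun s : ℝ => B * (c - s) := by fun_prop
      have ht : Tendsto (fun s : ℝ => B * (c - s)) (𝓝[Ico 0 c] c) (𝓝 (B * (c - c))) :=
        (hcont.tendsto c).mono_left nhdsWithin_le_nhds
      refine ht.eventually_lt_const ?_
      rw [sub_self, mul_zero]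
      (clear * - hHcpos; positivity)
    obtain ⟨s, ⟨hs1, hs2⟩, hs3⟩ := ((hev1.and hev2).and eventually_mem_nhdsWithin).exists
    refine ⟨hcI, fun τ hτ => ?_, hJη⟩
    rcases hτ.2.eq_or_lt with h | h
    · rw [h]
      have hsI : s ∈ Icc 0 t0 := ⟨hs3.1, hs3.2.le.trans hct⟩
      exact step s hsI c ⟨hs3.2.le, hct⟩ ((himpS s (hlt s hs3)).2.2.2 s ⟨hs3.1, le_rfl⟩)
        (by linarith only [hs1]) hs2.le
    · exact (hlt τ ⟨hτ.1, h⟩).2.1 τ ⟨hτ.1, le_rfl⟩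
  have hceq : c = t0 := by
    by_contra hne
    have hclt : c < t0 := lt_of_le_of_ne hct hne
    have hcI : c ∈ Icc 0 t0 := ⟨hc0, hct⟩
    obtain ⟨i1, i2, i3, i4⟩ := himpS c hcS
    have hNcpos : 0 < Nf c := (i1 c ⟨hc0, le_rfl⟩).1
    have hHcpos : 0 < H c := hHpos c hc0 hNcpos
    have hmem : Icc 0 t0 ∈ 𝓝[>] c := mem_of_superset (Ioc_mem_nhdsGT hclt) fun t ht =>
      ⟨hc0.trans ht.1.le, ht.2⟩
    have hfil : 𝓝[>] c ≤ 𝓝[Icc 0 t0] c := by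
      rw [nhdsWithin, nhdsWithin, le_inf_iff]
      exact ⟨inf_le_left, le_principal_iff.2 hmem⟩
    have hJt : Tendsto J (𝓝[>] c) (𝓝 (J c)) := (hJc c hcI).mono_left hfil
    have hHt : Tendsto H (𝓝[>] c) (𝓝 (H c)) := (hHc c hcI).mono_left hfil
    have hev1 : ∀ᶠ t in 𝓝[>] c, 6 / 7 * H c < H t := hHt.eventually_const_lt (by linarith only [hHcpos])
    have hε' : 2 * ε' < η := by linarith only [hη, k2]
    have hev2 : ∀ᶠ t in 𝓝[>] c, J t < η := hJt.eventually_lt_const (i3.trans_lt hε')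
    have hev3 : ∀ᶠ t in 𝓝[>] c,
        B * (t - c) < 1 / 8 * (6 / 7 * H c) * Real.exp (-(2 / P.ss n) - (N : ℝ) ^ 2 / 6) := by
      have hcont : Continuous fun t : ℝ => B * (t - c) := by fun_prop
      have ht : Tendsto (fun t : ℝ => B * (t - c)) (𝓝[>] c) (𝓝 (B * (c - c))) :=
        (hcont.tendsto c).mono_left nhdsWithin_le_nhds
      refine ht.eventually_lt_const ?_
      rw [sub_self, mul_zero]
      (clear * - hHcpos; positivity)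
    have hev := (hev1.and (hev2.and hev3)).and (Ioc_mem_nhdsGT hclt)
    obtain ⟨u, hu, hsub⟩ := mem_nhdsGT_iff_exists_Ioc_subset.1 hev
    have huc : c < u := hu
    have huS : u ∈ S := by
      have hu' := hsub ⟨huc, le_rfl⟩
      refine ⟨⟨hc0.trans huc.le, hu'.2.2⟩, fun τ hτ => ?_, hu'.1.2.1.le⟩
      rcases le_or_gt τ c with h | h
      · exact hcS.2.1 τ ⟨hτ.1, h⟩
      · have hτ' := hsub ⟨h, hτ.2⟩
        refine step c hcI τ ⟨h.le, hτ'.2.2⟩ (i4 c ⟨hc0, le_rfl⟩) hτ'.1.1.le ?_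
        refine hτ'.1.2.2.le.trans ?_
        have := hτ'.1.1.le
        (clear * - this; gcongr)
    exact absurd (le_csSup hbdd huS) (not_le.2 huc)
  rw [hceq] at hcS
  obtain ⟨i1, i2, -, -⟩ := himpS t0 hcS
  refine ⟨⟨i2, i1⟩, fun τ hτ x v => ?_⟩
  refine (hcS.2.1 τ hτ x v).trans ?_
  have e : Ca * NN P n (2 * t0) h τ / P.TT n τ ^ 2 = H τ := rfl
  rw [e]
  refine mul_le_mul' le_rfl (bt_Pi_anti n ?_ τ x v)
  rw [hgJ τ hτ]
  have h1 : J τ ≤ η := (hJm τ hτ t0 ⟨hτ.2, le_rfl⟩).trans hcS.2.2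
  have h2 : C2 * (τ + Ca * J τ) ≤ C2 * (t0 + Ca * η) := by
    have := hτ.2
    (clear * - this h1 hCa hC2; gcongr)
  linarith only [k4, h2]

/-- continuation argument, with the bound of the hot part by the profile -/
theorem h725_boot : EvP fun P => ∀ CB : ℝ, 0 < CB → ∃ m0 ε Cb : ℝ, 0 < m0 ∧
    m0 ≤ 1 / 2 ∧ 0 < ε ∧ 0 < Cb ∧ ∀ ε' ∈ Ioc 0 ε, ∀ᶠ t0 in 𝓝[>] (0 : ℝ), ∀ᶠ n in atTop, ∀ᶠ N in atTop,
    ∀ κ ∈ Ioc (0 : ℝ) 1, ∀ F G h, Split P CB t0 n N κ F G h →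
    (∀ τ ∈ Icc 0 t0, MP P n (2 * t0) m0 h τ ≤ ε' * P.TT n τ) →
    (Grows P n (2 * t0) h t0 ∧
    (∀ τ ∈ Icc 0 t0, 0 < NN P n (2 * t0) h τ ∧
      NN P n (2 * t0) h τ ≤ 2 * MP P n (2 * t0) m0 h τ)) ∧
    ∀ τ ∈ Icc 0 t0, ∀ x v, ENNReal.ofReal (h τ x v) ≤
      ENNReal.ofReal (Cb * ε' / P.TT n τ) * Pi P n (1 / 8) τ x v := by
  have hLam : EvP fun P => 3 ≤ P.Lam := by
    have : Tendsto (fun c : ℝ => c / (100 * (400 * √c))) atTop atTop := by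
      have h1 : Tendsto (fun c : ℝ => √c / 40000) atTop atTop :=
        (Real.tendsto_sqrt_atTop).atTop_div_const (by norm_num)
      refine h1.congr' ?_
      filter_upwards [eventually_gt_atTop 0] with c hc
      have h2 : √c ≠ 0 := (Real.sqrt_pos.mpr hc).ne'
      field_simp
      rw [Real.sq_sqrt hc.le]
      ring
    have h3 := EvP.of_c (this.eventually_ge_atTop 3)
    exact h3
  refine (EvP.basic.and (sup_improve.and (growth.and (Pi_mono.and (wt_facts.and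
    (wt_meas.and hLam)))))).mono ?_
  rintro P ⟨⟨hc, hl2, hl1, -, -, -, -⟩, hsup, hgrowth, hPi, hwt, hwm, hLam⟩
  have hl0 : 0 < P.lam := by linarith only [hl2]
  intro CB hCB
  obtain ⟨Ca, C2, ε1, hCa, hC2, hε1, hsup⟩ := hsup CB hCB
  obtain ⟨ε2, hε2, hgrowth⟩ := hgrowth CB Ca hCB hCa
  obtain ⟨m0, hm0, hm01, hm0'⟩ := bt_m0 hCa
  set η : ℝ := min ε2 (min (ε1 / (2 * Ca)) (1 / (48 * C2 * Ca))) with hη
  have hηpos : 0 < η := lt_min hε2 (lt_min (by (clear * - hε1 hCa; positivity)) (by positivity))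
  refine ⟨m0, min (ε2 / 2) (η / 4), 2 * Ca, hm0, hm01, by (clear * - hε2 hε1 hCa hC2; positivity),
    by (clear * - hCa; positivity), fun ε' hε' => ?_⟩
  have e1 : η ≤ ε2 := min_le_left _ _
  have e2 : Ca * η ≤ ε1 / 2 := by
    have : η ≤ ε1 / (2 * Ca) := (min_le_right _ _).trans (min_le_left _ _)
    rw [le_div_iff₀ (by positivity)] at this
    linarith only [this]
  have e3 : C2 * (Ca * η) ≤ 1 / 48 := by
    have : η ≤ 1 / (48 * C2 * Ca) := (min_le_right _ _).trans (min_le_right _ _)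
    rw [le_div_iff₀ (by (clear * - hC2 hCa; positivity))] at this
    linarith only [this]
  have e4 : ε' ≤ ε2 / 2 := hε'.2.trans (min_le_left _ _)
  have e5 : ε' ≤ η / 4 := hε'.2.trans (min_le_right _ _)
  have hsm : ∀ᶠ t0 in 𝓝[>] (0 : ℝ), 0 < t0 ∧ t0 ≤ min (ε1 / 2) (1 / (48 * C2)) :=
    Ioc_mem_nhdsGT (lt_min (by (clear * - hε1; positivity)) (by positivity))
  filter_upwards [hsup, hgrowth, hPi, hwt, hsm] with t0 hsup hgrowth hPi hwt ht0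
  obtain ⟨ht0, ht0'⟩ := ht0
  have f1 : t0 ≤ ε1 / 2 := ht0'.trans (min_le_left _ _)
  have f2 : C2 * t0 ≤ 1 / 48 := by
    have := ht0'.trans (min_le_right _ _)
    rw [le_div_iff₀ (by positivity)] at this
    linarith only [this]
  have hss : ∀ᶠ n in atTop, P.ss n ≤ t0 := by
    have h1 : Tendsto (fun n : ℕ => P.lam ^ (n + 1)) atTop (𝓝 0) :=
      (tendsto_pow_atTop_nhds_zero_of_lt_one hl0.le hl1).comp (tendsto_add_atTop_nat 1)
    have h2 := h1.div_const P.w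
    rw [zero_div] at h2
    exact h2.eventually (eventually_le_nhds ht0)
  filter_upwards [hsup, hgrowth, eventually_ge_atTop P.j0, hss] with n hsup hgrowth hj hss
  filter_upwards [hgrowth, eventually_ge_atTop 3] with N hgrowth hN
  intro κ hκ F G h hs hm
  obtain ⟨hinit, himp⟩ := hsup N hN κ hκ F G h hs
  have hw : ∀ t ∈ Icc 0 (2 * t0), ∀ x v,
      0 ≤ wt P n (2 * t0) t x v ∧ wt P n (2 * t0) t x v ≤ 1 := fun t ht x v =>
    ⟨(hwt n hj hss t ht x v).1, (hwt n hj hss t ht x v).2.1⟩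
  have hbt : ∀ τ ∈ Icc 0 t0, (∀ x v, ENNReal.ofReal (h τ x v) ≤
        ENNReal.ofReal (Ca * NN P n (2 * t0) h τ / P.TT n τ ^ 2) * Pi P n (1 / 8) τ x v) →
      NN P n (2 * t0) h τ ≤ 2 * MP P n (2 * t0) m0 h τ := by
    intro τ hτ hb
    exact bt_NN_le hc hl0 hN hs hCa hm0 hm01 hm0' (hwm n (2 * t0)) hw
      ⟨hτ.1, by linarith only [ht0, hτ.2]⟩ hb
  have hres := h725_core (η := η) (ε1 := ε1) (ε2 := ε2) (Ca := Ca) (C2 := C2) (ε' := ε') (m0 := m0)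
    hc hl0 hLam ht0 hN hs hCa hC2 hηpos (hwm n (2 * t0)) hw (hPi n) hinit himp
    (hgrowth κ hκ F G h hs) hbt hm (by linarith only [hε2, e1, e5]) (by linarith only [e5]) e1 (by linarith only [f2, e3]) (by linarith only [e2, f1])
  refine ⟨hres.1, fun τ hτ x v => (hres.2 τ hτ x v).trans (mul_le_mul' (ENNReal.ofReal_le_ofReal ?_) le_rfl)⟩
  have hT : 0 < P.TT n τ := bt_TT_pos hc hl0 n hτ.1
  have h1 := (hres.1.2 τ hτ).2
  have h2 := hm τ hτ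
  have h3 : NN P n (2 * t0) h τ ≤ 2 * (ε' * P.TT n τ) := by linarith only [h1, h2]
  rw [div_le_div_iff₀ (pow_pos hT 2) hT]
  calc Ca * NN P n (2 * t0) h τ * P.TT n τ ≤ Ca * (2 * (ε' * P.TT n τ)) * P.TT n τ := by
        (clear * - h3 hT hCa; gcongr)
    _ = 2 * Ca * ε' * P.TT n τ ^ 2 := by ring

end Vale.Agent.P140.NU
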