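import Vale.Agent.P140.Stt

/-!
# P140: nonuniqueness without loss of energy, momentum or moments (definitions)
-/

open MeasureTheory Set
open Vale.Agent.P140.Stt

namespace Vale.Agent.P140.H725

/-- the velocities -/
abbrev R3 : Type := EuclideanSpace ℝ (Fin 3)

/-- the positions -/
abbrev T3 : Type := UnitAddTorus (Fin 3)

/-- the canonical projection `ℝ³ → ℝ³ / ℤ³` -/
def proj (x : R3) : T3 := fun i => (x i : UnitAddCircle)

/-- some datum has two different renormalized entropy solutions -/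
def Nonuniqueness : Prop :=
  ∃ (F0 : T3 × R3 → ℝ) (F G : ℝ → T3 × R3 → ℝ), IsSol proj F0 F ∧ IsSol proj F0 G ∧
    (∃ t : ℝ, 0 ≤ t ∧ ¬ F t =ᵐ[volume] G t) ∧
    ¬ ∀ᵐ q : ℝ × T3 × R3, 0 ≤ q.1 → F q.1 q.2 = G q.1 q.2

/-- distance to the closed straight line `x₀ = x₁ = 0` of the torus -/
noncomputable def lineDist (x : T3) : ℝ := √(‖x 0‖ ^ 2 + ‖x 1‖ ^ 2)

/-- the balance `B_ψ` up to the time `t`: `∂ₜ ∫ ψ F dv + ∇ₓ ⬝ ∫ v ψ F dv = 0` in distributions on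
`[0, t) × T³`, with initial trace `∫ ψ F0 dv` -/
def Balance (t : ℝ) (F0 : T3 × R3 → ℝ) (F : ℝ → T3 × R3 → ℝ) (ψ : R3 → ℝ) : Prop :=
  ∀ φ : ℝ → T3 → ℝ, (ContDiff ℝ (⊤ : ℕ∞) fun q : ℝ × R3 => φ q.1 (proj q.2)) →
    (∀ s x, t ≤ |s| → φ s x = 0) →
    (∫ q in Ioi 0 ×ˢ (univ : Set (T3 × R3)), ψ q.2.2 * F q.1 q.2 *
        deriv (fun r : ℝ => φ (q.1 + r) (q.2.1 + proj (r • q.2.2))) 0)
      + ∫ p, ψ p.2 * F0 p * φ 0 p.1 = 0

/-- up to the time `t` nothing is lost: Gaussian moments, global conservation of the energy, local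
conservation of momentum and energy -/
structure Lossless (C t : ℝ) (F0 : T3 × R3 → ℝ) (F : ℝ → T3 × R3 → ℝ) : Prop where
  moments : ∀ s ∈ Icc 0 t, ∀ᵐ x : T3,
    ∫⁻ v : R3, ENNReal.ofReal (Real.exp (‖v‖ ^ 2 / 32) * F s (x, v)) ≤
      ENNReal.ofReal (C / (s + lineDist x))
  energy : ∀ s ∈ Icc 0 t, ∫⁻ p, ENNReal.ofReal (‖p.2‖ ^ 2 * F s p) =
    ∫⁻ p, ENNReal.ofReal (‖p.2‖ ^ 2 * F0 p)
  localMomentum : ∀ i : Fin 3, Balance t F0 F fun v => v i
  localEnergy : Balance t F0 F fun v => ‖v‖ ^ 2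

/-- The lossless solutions with datum `F0` form at least a continuum at the time `t`: for a set `A`
of the phase space and an interval `[a, b]`, every `m` in `[a, b]` is the mass of `A` at the time
`t` for some lossless solution `F m` with datum `F0`; solutions with different `m` are different. -/
def Continuum (C t : ℝ) (F0 : T3 × R3 → ℝ) : Prop :=
  ∃ (A : Set (T3 × R3)) (a b : ℝ) (F : ℝ → ℝ → T3 × R3 → ℝ), MeasurableSet A ∧ 0 < a ∧ a < b ∧
    ∀ m ∈ Icc a b, IsSol proj F0 (F m) ∧ Lossless C t F0 (F m) ∧ ∫ p in A, F m t p = m ∧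
      ∀ m' ∈ Icc a b, m' ≠ m → (¬ F m t =ᵐ[volume] F m' t) ∧
        ¬ ∀ᵐ q : ℝ × T3 × R3, 0 ≤ q.1 → F m q.1 q.2 = F m' q.1 q.2

/-- arbitrarily small data with a continuum of lossless solutions at every small positive time -/
def LosslessContinuum : Prop :=
  ∀ δ : ℝ, 0 < δ → ∃ (F0 : T3 × R3 → ℝ) (C τ : ℝ), 0 < τ ∧
    ∫⁻ p, ENNReal.ofReal (F0 p * (1 + ‖p.2‖ ^ 2 + |Real.log (F0 p)|)) < ENNReal.ofReal δ ∧
    ∀ t, 0 < t → t < τ → Continuum C t F0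

end Vale.Agent.P140.H725
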