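import Vale.Agent.P140.H725.Lim

/-!
# P140: the family of solutions with Gaussian moments and without loss of energy
-/

set_option linter.all false

open MeasureTheory Set Filter
open scoped ENNReal Topology NNReal

noncomputable section

namespace Vale.Agent.P140.NU

theorem apx_slice {N : ℕ} {D : T3 → V → ℝ} {F : ℝ → T3 → V → ℝ} (h : DL.IsApprox N D F) (t : ℝ) :
    Measurable fun p : T3 × V => F t p.1 p.2 :=
  h.meas.comp (measurable_const.prodMk measurable_id)

theorem apx_psi0 {N : ℕ} {D : T3 → V → ℝ} {F : ℝ → T3 → V → ℝ} (h : DL.IsApprox N D F) :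
    wInt psi0 D < ⊤ := by
  have h1 := lintegral_F0_lt_top h.datum
  refine lt_of_le_of_lt (le_of_eq ?_) h1
  unfold wInt psi0
  refine lintegral_congr fun p => ?_
  rw [one_mul]

theorem apx_integrable {N : ℕ} {D : T3 → V → ℝ} {F : ℝ → T3 → V → ℝ} (h : DL.IsApprox N D F)
    {t : ℝ} (ht : 0 ≤ t) : Integrable fun p : T3 × V => F t p.1 p.2 := by
  refine DL.s5_integrable_of_lint (apx_slice h t) (fun p => h.nonneg _ _ _) ?_
  have h1 := h.mass t ht
  have h2 := apx_psi0 h
  rw [← h1] at h2
  refine lt_of_le_of_lt (le_of_eq ?_) h2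
  unfold wInt psi0
  refine lintegral_congr fun p => ?_
  rw [one_mul]

theorem apx_en {N : ℕ} {D : T3 → V → ℝ} {F : ℝ → T3 → V → ℝ} (h : DL.IsApprox N D F)
    {t : ℝ} (ht : 0 ≤ t) : en D = en (F t) := by
  have h1 := h.energy t ht
  rw [en_eq (apx_slice h t), en_eq h.datum.measurable, h.mass t ht,
    ENNReal.add_right_inj (apx_psi0 h).ne] at h1
  exact h1.symm

end Vale.Agent.P140.NU
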