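import Vale.Agent.P140.H725.LocMain

/-!
# P140: the family of solutions with Gaussian moments and without any loss
-/

set_option linter.all false

open MeasureTheory Set Filter
open scoped ENNReal Topology NNReal

noncomputable section

namespace Vale.Agent.P140.NU

/-- the singular datum has, at every small time, solutions with all intermediate values of the
observable, with Gaussian moments, without loss of energy, and with all local conservation laws, up
to this time -/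
theorem h725_family : EvP fun P => ∃ m0 ε C : ℝ, 0 < m0 ∧ 0 < ε ∧ 0 < C ∧
    ∀ᶠ t0 in 𝓝[>] (0 : ℝ), ∀ s ∈ Icc (ε / 2 * t0) (ε * t0),
    ∃ L : ℝ → T3 → V → ℝ, IsRenormEntropySol (coldInf P) L ∧
      ∫ p : T3 × V, L t0 p.1 p.2 * Theta P t0 m0 p = s ∧
      (∀ t ∈ Ioc 0 t0, (∀ᵐ x, ∫⁻ v, ENNReal.ofReal (L t x v) * gw v ≤
        ENNReal.ofReal (C / (t + rr x))) ∧ en (coldInf P) ≤ en (L t)) ∧
      ∀ (ψ : V → ℝ) (c : ℝ), Measurable ψ → 0 ≤ c → (∀ v, |ψ v| ≤ c * (1 + ‖v‖ ^ 2)) →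
        (∀ v w o, ψ (post v w o) + ψ (postStar v w o) = ψ v + ψ w) →
        ∀ φ : ℝ → T3 → ℝ, IsTestX φ → (∀ s x, t0 ≤ |s| → φ s x = 0) →
        (∫ p : ℝ × T3 × V in Ioi 0 ×ˢ univ,
          L p.1 p.2.1 p.2.2 * (ψ p.2.2 * transport φ p.1 p.2.1 p.2.2))
        + ∫ p : T3 × V, coldInf P p.1 p.2 * (ψ p.2 * φ 0 p.1) = 0 := by
  refine (h725_ign.and (gm_main.and (coldInf_datum.and (dat_tendsto.and (dat_entropy.and
      (dat_bdd.and dat_datum)))))).mono ?_
  rintro P ⟨⟨CB, m0, ε, Cb, hCB, hm0, hε, hCb, hig⟩, hgm, hd, ht, he, hb, hdn⟩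
  obtain ⟨C, hC, hgm⟩ := hgm CB Cb hCB hCb
  refine ⟨m0, ε, C, hm0, hε, hC, ?_⟩
  filter_upwards [hig, hgm, self_mem_nhdsWithin] with t0 hig hgm ht0
  have ht0 : 0 < t0 := ht0
  intro s hs
  have hig' := hig.mono fun n hn => hn.and (eventually_ge_atTop 3)
  obtain ⟨a, b, ha, hb', hab⟩ := exists_seq hig'
  have hκ : ∀ k, ∃ κ ∈ Icc (0 : ℝ) 1, ∃ F G h, Split P CB t0 (a k) (b k) κ F G h ∧
      ∫ p : T3 × V, F t0 p.1 p.2 * Theta P t0 m0 p = s ∧
      ∀ τ ∈ Icc 0 t0, ∀ x v, ENNReal.ofReal (h τ x v) ≤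
        ENNReal.ofReal (Cb / P.TT (a k) τ) * Pi P (a k) (1 / 8) τ x v := fun k => (hab k).1 s hs
  choose κ hκ F G h hsp hobs hhot using hκ
  have hF : ∀ k, DL.IsBM (b k) (dat P (a k) (κ k)) (F k) := fun k => (hsp k).appr
  have hconv : Tendsto (fun k => wDist psi2 (dat P (a k) (κ k)) (coldInf P)) atTop (𝓝 0) := by
    rw [ENNReal.tendsto_nhds_zero]
    intro δ hδ
    have h1 := ha.eventually (unif_of_seq (I := fun n κ => ∫⁻ p : T3 × V, ENNReal.ofReal
      ((1 + ‖p.2‖ ^ 2) * |dat P n κ p.1 p.2 - coldInf P p.1 p.2|)) ht hδ)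
    filter_upwards [h1] with k hk
    refine le_trans (le_of_eq ?_) (hk (κ k) (hκ k)).le
    unfold wDist psi2
    congr 1
    funext p
    rw [← ENNReal.ofReal_mul (by positivity)]
  have hent : ∀ δ : ℝ≥0∞, 0 < δ → ∀ᶠ k in atTop,
      relEntropy (dat P (a k) (κ k)) ≤ relEntropy (coldInf P) + δ := by
    intro δ hδ
    have hfin : relEntropy (coldInf P) ≠ ⊤ := (DL.relEntropy_datum hd).ne
    have h1 := ha.eventually (unif_of_seq (I := fun n κ => relEntropy (dat P n κ)) he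
      (ENNReal.lt_add_right hfin hδ.ne'))
    filter_upwards [h1] with k hk
    exact (hk (κ k) (hκ k)).le
  have hap : ∀ k, DL.IsApprox (b k) (dat P (a k) (κ k)) (F k) := fun k =>
    (hF k).isApprox (hdn (a k) (κ k) (hκ k))
  obtain ⟨φ, hφ, L, hL, hlim⟩ := DL.stability hb' hd hap hconv hent
  have hl := hlim t0 ht0.le _ (measurable_Theta P t0 m0) ⟨1, fun p => by
    unfold Theta
    split_ifs <;> simp⟩
  refine ⟨L, hL, tendsto_nhds_unique hl ?_, ?_, ?_⟩
  · have hc : (fun k => ∫ p : T3 × V, F (φ k) t0 p.1 p.2 * Theta P t0 m0 p) = fun _ => s :=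
      funext fun k => hobs (φ k)
    rw [hc]
    exact tendsto_const_nhds
  · intro t ht
    have hW : WC (fun k => F (φ k) t) (L t) := fun θ mθ hθ => hlim t ht.1.le θ mθ hθ
    have mL : Measurable fun p : T3 × V => L t p.1 p.2 :=
      hL.measurable.comp (measurable_const.prodMk measurable_id)
    have hbd : ∀ k x, ∫⁻ v, ENNReal.ofReal (F (φ k) t x v) * gw v ≤
        ENNReal.ofReal (C / (t + rr x)) := fun k x =>
      hgm (a (φ k)) (b (φ k)) (κ (φ k)) _ _ _ (hsp (φ k)) (hhot (φ k)) t ht x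
    constructor
    · exact lim_moment hW (fun k => apx_slice (hap (φ k)) t) (fun k x v => (hF (φ k)).nonneg t x v)
        (fun k => apx_integrable (hap (φ k)) ht.1.le) mL (hL.nonneg t) (hL.integrable t ht.1.le)
        ht.1 hC.le hbd
    · exact lim_energy hW (fun k => apx_slice (hap (φ k)) t) (fun k x v => (hF (φ k)).nonneg t x v)
        (fun k => apx_integrable (hap (φ k)) ht.1.le) mL (hL.nonneg t) (hL.integrable t ht.1.le)
        ht.1 hC.le hbd (D := fun k => dat P (a (φ k)) (κ (φ k))) (D0 := coldInf P)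
        (fun k => (hap (φ k)).datum.measurable) (fun k => (hF (φ k)).nonneg0)
        hd.nonneg (fun k => (apx_en (hap (φ k)) ht.1.le).le) (hconv.comp hφ.tendsto_atTop)
  · intro ψ c mψ hc hψ inv χ hχ hsup
    have hbd : ∀ k, ∀ t ∈ Ioc 0 t0, ∀ x, ∫⁻ v, ENNReal.ofReal (F (φ k) t x v) * gw v ≤
        ENNReal.ofReal (C / (t + rr x)) := fun k t ht x =>
      hgm (a (φ k)) (b (φ k)) (κ (φ k)) _ _ _ (hsp (φ k)) (hhot (φ k)) t ht x
    have hWt : ∀ t ∈ Ioc 0 t0, WC (fun k => F (φ k) t) (L t) := fun t ht θ mθ hθ =>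
      hlim t ht.1.le θ mθ hθ
    refine lim_local (K := C * 16) ht0 hWt (fun k => (hF (φ k)).meas) (fun k => (hF (φ k)).nonneg)
      hL.measurable hL.nonneg (by positivity)
      (fun k t ht => tot_unif (apx_slice (hap (φ k)) t) ht.1.le hC.le
        (Eventually.of_forall (hbd k t ht)))
      (fun t ht => ?_) (D := fun k => dat P (a (φ k)) (κ (φ k)))
      (fun k => (hap (φ k)).datum.measurable) (fun k => (hF (φ k)).nonneg0)
      (fun k => wInt2_datum (hap (φ k)).datum) hd.measurable hd.nonneg (wInt2_datum hd)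
      (hconv.comp hφ.tendsto_atTop) mψ hc hψ hχ hsup (fun k => ?_)
    · have mL : Measurable fun p : T3 × V => L t p.1 p.2 :=
        hL.measurable.comp (measurable_const.prodMk measurable_id)
      exact tot_unif mL ht.1.le hC.le (lim_moment (hWt t ht)
        (fun k => apx_slice (hap (φ k)) t) (fun k x v => (hF (φ k)).nonneg t x v)
        (fun k => apx_integrable (hap (φ k)) ht.1.le) mL (hL.nonneg t) (hL.integrable t ht.1.le)
        ht.1 hC.le (fun k => hbd k t ht))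
    · have h3 : (3 : ℝ) ≤ b (φ k) := by exact_mod_cast (hab (φ k)).2
      obtain ⟨C', hC'⟩ := hb (a (φ k))
      refine (hF (φ k)).h725_local (wInt2_datum (hap (φ k)).datum)
        (fun x v hv => (hC' _ (hκ (φ k)) x v).2.2 (lt_of_le_of_lt h3 hv)) mψ
        (K := c * (1 + (b (φ k) : ℝ) ^ 2)) (fun v hv => (hψ v).trans ?_) inv hχ
      have := norm_nonneg v
      gcongr

end Vale.Agent.P140.NU
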