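import Vale.Agent.P140.H725.Core

/-!
# P140: ignition with control of the whole solution

The amplitude of the seed is chosen below the FIRST critical amplitude, so that the hot part stays
below the Gaussian profile on the whole time interval, for all intermediate values of the observable.
-/

set_option linter.all false

open MeasureTheory Set Filter
open scoped ENNReal Topology NNReal

noncomputable section

namespace Vale.Agent.P140.NU

/-- intermediate value theorem for a supremum, at the first parameter -/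
theorem h725_sup {t0 : ℝ} (ht0 : 0 ≤ t0) {m : ℝ → ℝ → ℝ} {C : ℝ} (hC : 0 ≤ C)
    (hb : ∀ κ ∈ Icc (0 : ℝ) 1, ∀ t ∈ Icc 0 t0, |m κ t| ≤ C)
    (hl : ∀ κ ∈ Icc (0 : ℝ) 1, ∀ κ' ∈ Icc (0 : ℝ) 1, ∀ t ∈ Icc 0 t0,
      |m κ t - m κ' t| ≤ C * |κ - κ'|) {ε : ℝ} (h0 : ∀ t ∈ Icc 0 t0, m 0 t ≤ ε)
    (h1 : ∃ t ∈ Icc 0 t0, ε ≤ m 1 t) :
    ∃ κ ∈ Icc (0 : ℝ) 1, (∀ κ' ∈ Icc (0 : ℝ) κ, ∀ t ∈ Icc 0 t0, m κ' t ≤ ε) ∧
      ∀ δ < ε, ∃ t ∈ Icc 0 t0, δ < m κ t := by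
  have : Nonempty (Icc 0 t0) := ⟨⟨0, by simp only [mem_Icc, Std.le_refl, ht0, and_self]⟩⟩
  let M : ℝ → ℝ := fun κ => ⨆ t : Icc 0 t0, m κ t
  have hbdd : ∀ κ ∈ Icc (0 : ℝ) 1, BddAbove (range fun t : Icc 0 t0 => m κ t) := by
    intro κ hκ
    refine ⟨C, ?_⟩
    rintro _ ⟨t, rfl⟩
    exact (le_abs_self _).trans (hb κ hκ t t.2)
  have hle : ∀ κ ∈ Icc (0 : ℝ) 1, ∀ κ' ∈ Icc (0 : ℝ) 1, M κ ≤ M κ' + C * |κ - κ'| := by
    intro κ hκ κ' hκ'
    apply ciSup_le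
    intro t
    have h2 := (abs_le.mp (hl κ hκ κ' hκ' t t.2)).2
    have h3 := le_ciSup (hbdd κ' hκ') t
    simp only [M]
    linarith
  have hcont : ContinuousOn M (Icc 0 1) := by
    rw [Metric.continuousOn_iff]
    intro κ hκ δ hδ
    refine ⟨δ / (C + 1), by (clear * - hδ hC; positivity), fun κ' hκ' hd => ?_⟩
    rw [Real.dist_eq] at hd ⊢
    have h2 := hle κ' hκ' κ hκ
    have h3 := hle κ hκ κ' hκ'
    rw [abs_sub_comm κ κ'] at h3
    have h4 : C * |κ' - κ| < δ := by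
      have h5 : |κ' - κ| * (C + 1) < δ := (lt_div_iff₀ (by positivity)).mp hd
      linarith only [abs_nonneg (κ' - κ), h5]
    rw [abs_lt]
    constructor <;> linarith only [h2, h4, h3]
  have hz : (0 : ℝ) ∈ Icc (0 : ℝ) 1 := ⟨le_rfl, zero_le_one⟩
  have ho : (1 : ℝ) ∈ Icc (0 : ℝ) 1 := ⟨zero_le_one, le_rfl⟩
  have hM0 : M 0 ≤ ε := ciSup_le fun t => h0 t t.2
  have hM1 : ε ≤ M 1 := by
    obtain ⟨t, ht, hle⟩ := h1
    exact hle.trans (le_ciSup (hbdd 1 ho) ⟨t, ht⟩)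
  set S : Set ℝ := Icc 0 1 ∩ M ⁻¹' {ε} with hS
  have hScl : IsClosed S := hcont.preimage_isClosed_of_isClosed isClosed_Icc isClosed_singleton
  have hSne : S.Nonempty := by
    obtain ⟨κ, hκ, hκε⟩ := intermediate_value_Icc (zero_le_one) hcont ⟨hM0, hM1⟩
    exact ⟨κ, hκ, hκε⟩
  have hSb : BddBelow S := ⟨0, fun κ hκ => hκ.1.1⟩
  have hin : sInf S ∈ S := hScl.csInf_mem hSne hSb
  refine ⟨sInf S, hin.1, fun κ' hκ' t ht => ?_, fun δ hδ => ?_⟩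
  · have hκ1 : κ' ∈ Icc (0 : ℝ) 1 := ⟨hκ'.1, hκ'.2.trans hin.1.2⟩
    have key : M κ' ≤ ε := by
      by_contra hlt
      have hlt := not_le.1 hlt
      obtain ⟨κ'', hκ'', he⟩ := intermediate_value_Icc hκ'.1
        (hcont.mono (Icc_subset_Icc le_rfl hκ1.2)) ⟨hM0, hlt.le⟩
      have h5 : κ'' ∈ S := ⟨⟨hκ''.1, hκ''.2.trans hκ1.2⟩, he⟩
      have h6 : κ'' = κ' := le_antisymm hκ''.2 (hκ'.2.trans (csInf_le hSb h5))
      rw [h6] at he
      exact absurd he hlt.ne'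
    exact (le_ciSup (hbdd κ' hκ1) ⟨t, ht⟩).trans key
  · have he : M (sInf S) = ε := hin.2
    rw [← he] at hδ
    obtain ⟨t, ht⟩ := exists_lt_of_lt_ciSup hδ
    exact ⟨t, t.2, ht⟩

/-- the truncated problems: all intermediate values of the observable are attained by solutions
whose hot part stays below the Gaussian profile on the whole time interval -/
theorem h725_ign : EvP fun P => ∃ CB m0 ε Cb : ℝ, 0 < CB ∧ 0 < m0 ∧ 0 < ε ∧ 0 < Cb ∧
    ∀ᶠ t0 in 𝓝[>] (0 : ℝ), ∀ᶠ n in atTop, ∀ᶠ N in atTop, ∀ s ∈ Icc (ε / 2 * t0) (ε * t0),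
    ∃ κ ∈ Icc (0 : ℝ) 1, ∃ F G h, Split P CB t0 n N κ F G h ∧
      ∫ p : T3 × V, F t0 p.1 p.2 * Theta P t0 m0 p = s ∧
      ∀ τ ∈ Icc 0 t0, ∀ x v, ENNReal.ofReal (h τ x v) ≤
        ENNReal.ofReal (Cb / P.TT n τ) * Pi P n (1 / 8) τ x v := by
  have hLam : EvP fun P => 2 ≤ P.Lam := by
    have : Tendsto (fun c : ℝ => c / (100 * (400 * √c))) atTop atTop := by
      have h1 : Tendsto (fun c : ℝ => √c / 40000) atTop atTop :=
        (Real.tendsto_sqrt_atTop).atTop_div_const (by norm_num)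
      refine h1.congr' ?_
      filter_upwards [eventually_gt_atTop 0] with c hc
      have h2 : √c ≠ 0 := (Real.sqrt_pos.mpr hc).ne'
      field_simp
      rw [Real.sq_sqrt hc.le]
      ring
    have h3 := EvP.of_c (this.eventually_ge_atTop 2)
    exact h3
  refine (EvP.basic.and (exists_split.and (h725_boot.and (noise_small.and (MP_lip.and
    (MP_seed.and (MP_le_Theta.and (dat_bdd.and (hLam.and h119_obs_lip))))))))).mono ?_
  rintro P ⟨⟨hc, hl2, hl1, -, -, -, -⟩, hsplit, hboot, hnoise, hlip, hseed, hTheta, hdb, hLam, hobs⟩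
  have hl0 : 0 < P.lam := by linarith only [hl2]
  obtain ⟨CB, hCB, hsplit⟩ := hsplit
  obtain ⟨m0, ε0, Cb, hm0, hm01, hε0, hCb, hboot⟩ := hboot CB hCB
  obtain ⟨c1, hc1, hseed⟩ := hseed
  set ε : ℝ := min ε0 c1 with hε
  have hεpos : 0 < ε := lt_min hε0 hc1
  refine ⟨CB, m0, ε / 4, Cb * ε, hCB, hm0, by (clear * - hε0 hc1; positivity),
    by (clear * - hCb hεpos; positivity), ?_⟩
  filter_upwards [hsplit, hboot ε ⟨hεpos, min_le_left _ _⟩,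
    hnoise CB m0 (ε / 8) hCB hm0 (by positivity), hlip m0, hseed m0 hm01, hTheta m0,
    self_mem_nhdsWithin] with t0 hsplit hboot hnoise hlip hseed hTheta ht0
  have ht0 : 0 < t0 := ht0
  filter_upwards [hboot, eventually_ge_atTop P.j0,
    (Par.ss_tendsto hc hl0 hl1).eventually (eventually_le_nhds ht0)] with n hboot hj hss
  filter_upwards [hboot, eventually_ge_atTop 3] with N hboot hN
  have hT : ∀ t ∈ Icc 0 t0, 0 < P.TT n t := fun t ht => Par.TT_pos hc hl0 n ht.1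
  have hTle : ∀ t ∈ Icc 0 t0, P.ss n ≤ P.TT n t := fun t ht => by
    unfold Par.TT; linarith only [ht.1]
  have hsspos := Par.ss_pos hc hl0 n
  -- solutions
  have hex : ∀ κ : Icc (0 : ℝ) 1, ∃ F, DL.IsBM N (dat P n κ) F := by
    intro κ
    obtain ⟨C, hC⟩ := hdb n
    exact DL.exists_isBM N (dat_meas P n κ) (fun x v => (hC _ κ.2 x v).1)
      (fun x v _ => (hC _ κ.2 x v).2.1)
  choose F hF using hex
  -- the part without seed
  have hzero : ∀ F, DL.IsBM N (dat P n 0) F →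
      (∀ t ∈ Icc 0 t0, MP P n (2 * t0) m0 F t ≤ ε / 8 * P.TT n t) ∧
      ∫ p : T3 × V, F t0 p.1 p.2 * Theta P t0 m0 p ≤ ε / 8 * t0 := by
    intro F hF
    obtain ⟨G, h, hs⟩ := hsplit n hj N hN 0 (by simp only [mem_Icc, Std.le_refl, zero_le_one, and_self]) F hF
    have h0 := hs.hot_eq_zero
    have hFG : ∀ t, 0 ≤ t → ∀ x v, F t x v = G t x v := by
      intro t ht x v
      rw [hs.eq, h0 t ht, add_zero]
    obtain ⟨h1, h2⟩ := hnoise n hj hss G hs.measG hs.nonnegG hs.up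
    constructor
    · intro t ht
      refine le_trans (le_of_eq ?_) (h1 t ht)
      unfold MP
      congr 1
      funext p
      rw [hFG t ht.1]
    · refine le_trans (le_of_eq ?_) h2
      congr 1
      funext p
      rw [hFG t0 ht0.le]
  -- choice of the amplitude
  obtain ⟨C, hC, hlipC⟩ := hlip n hj hss N
  let m : ℝ → ℝ → ℝ := fun κ t =>
    if hκ : κ ∈ Icc (0 : ℝ) 1 then MP P n (2 * t0) m0 (F ⟨κ, hκ⟩) t / P.TT n t else 0
  have hm : ∀ κ (hκ : κ ∈ Icc (0 : ℝ) 1) t, m κ t = MP P n (2 * t0) m0 (F ⟨κ, hκ⟩) t / P.TT n t :=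
    fun κ hκ t => by simp only [m, dif_pos hκ]
  obtain ⟨κ, hκ, hκ1, hκ2⟩ : ∃ κ ∈ Icc (0 : ℝ) 1,
      (∀ κ' ∈ Icc (0 : ℝ) κ, ∀ t ∈ Icc 0 t0, m κ' t ≤ ε) ∧
      ∀ δ < ε, ∃ t ∈ Icc 0 t0, δ < m κ t := by
    refine h725_sup ht0.le (C := C / P.ss n) (by (clear * - hC hsspos; positivity)) ?_ ?_ ?_ ?_
    · intro κ hκ t ht
      rw [hm κ hκ, abs_div, abs_of_pos (hT t ht)]
      exact div_le_div₀ hC (hlipC κ hκ κ hκ _ _ (hF ⟨κ, hκ⟩) (hF ⟨κ, hκ⟩) t ht).1 hsspos (hTle t ht)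
    · intro κ hκ κ' hκ' t ht
      rw [hm κ hκ, hm κ' hκ', ← sub_div, abs_div, abs_of_pos (hT t ht), div_mul_eq_mul_div]
      exact div_le_div₀ (by (clear * - hC; positivity))
        (hlipC κ hκ κ' hκ' _ _ (hF ⟨κ, hκ⟩) (hF ⟨κ', hκ'⟩) t ht).2 hsspos (hTle t ht)
    · intro t ht
      rw [hm 0 (by simp only [mem_Icc, Std.le_refl, zero_le_one, and_self]), div_le_iff₀ (hT t ht)]
      refine ((hzero _ (hF ⟨0, by simp only [mem_Icc, Std.le_refl, zero_le_one, and_self]⟩)).1 t ht).trans ?_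
      nlinarith only [hεpos, hT t ht]
    · refine ⟨0, by simp only [mem_Icc, Std.le_refl, ht0.le, and_self], ?_⟩
      rw [hm 1 (by simp only [mem_Icc, zero_le_one, Std.le_refl, and_self]), le_div_iff₀ (hT 0 (by simp only [mem_Icc, Std.le_refl, ht0.le, and_self]))]
      refine le_trans ?_ (hseed n hj hss N hN _ (hF ⟨1, by simp only [mem_Icc, zero_le_one, Std.le_refl, and_self]⟩))
      have : ε ≤ c1 := min_le_right _ _
      linarith only [mul_nonneg (sub_nonneg.2 this) (le_of_lt (sub_pos.2 (hT 0 (by simp [ht0.le]))))]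
  -- the hot part below the first critical amplitude
  have hhot : ∀ κ' (hκ' : κ' ∈ Icc (0 : ℝ) κ) (hκ'1 : κ' ∈ Icc (0 : ℝ) 1) G h,
      Split P CB t0 n N κ' (F ⟨κ', hκ'1⟩) G h →
      ∀ τ ∈ Icc 0 t0, MP P n (2 * t0) m0 h τ ≤ ε * P.TT n τ := by
    intro κ' hκ' hκ'1 G h hs τ hτ
    obtain ⟨hT1, -, -, -⟩ := hTheta n hj hss CB κ' N hN _ G h hs
    refine (hT1 τ hτ).trans ?_
    have := hκ1 κ' hκ' τ hτ
    rwa [hm κ' hκ'1, div_le_iff₀ (hT τ hτ)] at this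
  have hκ0 : 0 < κ := by
    rcases hκ.1.eq_or_lt with h | h
    · exfalso
      subst h
      obtain ⟨t, ht, hlt⟩ := hκ2 (ε / 4) (by linarith only [hεpos])
      rw [hm 0 hκ, lt_div_iff₀ (hT t ht)] at hlt
      have := (hzero _ (hF ⟨0, hκ⟩)).1 t ht
      nlinarith only [this, hlt, hεpos, hT, ht, hT t ht]
    · exact h
  -- the observable at the first critical amplitude
  have hcrit : ε / 4 * t0 ≤ ∫ p : T3 × V, F ⟨κ, hκ⟩ t0 p.1 p.2 * Theta P t0 m0 p := by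
    obtain ⟨G, h, hs⟩ := hsplit n hj N hN κ hκ (F ⟨κ, hκ⟩) (hF ⟨κ, hκ⟩)
    obtain ⟨hT1, hT2, hT3, hT4⟩ := hTheta n hj hss CB κ N hN _ G h hs
    have hMPle := hhot κ ⟨hκ.1, le_rfl⟩ hκ G h hs
    obtain ⟨⟨hgrow, hNN⟩, -⟩ := hboot κ ⟨hκ0, hκ.2⟩ _ G h hs hMPle
    obtain ⟨t', ht', hlt⟩ := hκ2 (3 / 4 * ε) (by linarith only [hεpos])
    rw [hm κ hκ, lt_div_iff₀ (hT t' ht')] at hlt
    have hMPG := (hnoise n hj hss G hs.measG hs.nonnegG hs.up).1 t' ht'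
    have hMPh : ε / 2 * P.TT n t' ≤ MP P n (2 * t0) m0 h t' := by
      have := hT2 t' ht'
      linarith only [mul_pos (sub_pos.2 hεpos) (sub_pos.2 (hT t' ht')), hlt, this, hMPG]
    have hNNt' : ε / 2 * P.TT n t' ≤ NN P n (2 * t0) h t' := hMPh.trans (hT3 t' ht')
    have hg := hgrow t' ht' t0 ⟨ht'.2, le_rfl⟩
    have hratio : 1 ≤ P.TT n t0 / P.TT n t' := by
      rw [one_le_div (hT t' ht')]
      unfold Par.TT
      linarith only [ht'.2]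
    have hpow : P.TT n t0 / P.TT n t' ≤ (P.TT n t0 / P.TT n t') ^ (P.Lam - 1) := by
      conv_lhs => rw [← Real.rpow_one (P.TT n t0 / P.TT n t')]
      exact Real.rpow_le_rpow_of_exponent_le hratio (by linarith only [hLam])
    have hNN0 : ε / 2 * P.TT n t0 ≤ NN P n (2 * t0) h t0 := by
      refine le_trans ?_ hg
      calc ε / 2 * P.TT n t0 = (ε / 2 * P.TT n t') * (P.TT n t0 / P.TT n t') := by
            (clear * - hT ht' hεpos; field_simp [(hT t' ht').ne'])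
        _ ≤ NN P n (2 * t0) h t' * (P.TT n t0 / P.TT n t') ^ (P.Lam - 1) := by
            apply mul_le_mul hNNt' hpow (by (clear * - hratio; positivity))
            exact (hNN t' ht').1.le
    have h5 := (hNN t0 ⟨ht0.le, le_rfl⟩).2
    have h6 : t0 ≤ P.TT n t0 := by unfold Par.TT; linarith only [hsspos]
    refine le_trans ?_ hT4
    linarith only [mul_nonneg (le_of_lt (sub_pos.2 hεpos)) (sub_nonneg.2 h6), h5, hNN0]
  -- intermediate values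
  intro s hs
  obtain ⟨CL, hCL, hL⟩ := hobs t0 m0 ht0 n N
  let ob : ℝ → ℝ := fun κ =>
    if hκ : κ ∈ Icc (0 : ℝ) 1 then ∫ p : T3 × V, F ⟨κ, hκ⟩ t0 p.1 p.2 * Theta P t0 m0 p else 0
  have hob : ∀ κ (hκ : κ ∈ Icc (0 : ℝ) 1), ob κ =
      ∫ p : T3 × V, F ⟨κ, hκ⟩ t0 p.1 p.2 * Theta P t0 m0 p := fun κ hκ => by
    simp only [ob, dif_pos hκ]
  have hcont : ContinuousOn ob (Icc 0 1) := by
    rw [Metric.continuousOn_iff]
    intro κ hκ δ hδ
    refine ⟨δ / (CL + 1), by positivity, fun κ' hκ' hd => ?_⟩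
    rw [Real.dist_eq] at hd ⊢
    rw [hob κ' hκ', hob κ hκ]
    refine (hL κ' hκ' κ hκ _ _ (hF ⟨κ', hκ'⟩) (hF ⟨κ, hκ⟩)).trans_lt ?_
    have h5 : |κ' - κ| * (CL + 1) < δ := (lt_div_iff₀ (by positivity)).mp hd
    nlinarith only [abs_nonneg (κ' - κ), h5]
  have hz : (0 : ℝ) ∈ Icc (0 : ℝ) 1 := ⟨le_rfl, zero_le_one⟩
  have e0 : ob 0 ≤ s := by
    rw [hob 0 hz]
    refine ((hzero _ (hF ⟨0, hz⟩)).2).trans (le_trans ?_ hs.1)
    linarith only []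
  have e1 : s ≤ ob κ := by
    rw [hob κ hκ]
    exact hs.2.trans hcrit
  obtain ⟨κ', hκ', hκs⟩ := intermediate_value_Icc hκ.1
    (hcont.mono (Icc_subset_Icc le_rfl hκ.2)) ⟨e0, e1⟩
  have hκ'1 : κ' ∈ Icc (0 : ℝ) 1 := ⟨hκ'.1, hκ'.2.trans hκ.2⟩
  obtain ⟨G, h, hsp⟩ := hsplit n hj N hN κ' hκ'1 (F ⟨κ', hκ'1⟩) (hF ⟨κ', hκ'1⟩)
  refine ⟨κ', hκ'1, F ⟨κ', hκ'1⟩, G, h, hsp, ?_, ?_⟩
  · rw [← hκs, hob κ' hκ'1]
  · intro τ hτ x v
    rcases hκ'.1.eq_or_lt with h0 | h0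
    · subst h0
      rw [hsp.hot_eq_zero τ hτ.1 x v, ENNReal.ofReal_zero]
      exact zero_le
    · exact (hboot κ' ⟨h0, hκ'1.2⟩ _ G h hsp (hhot κ' hκ' hκ'1 G h hsp)).2 τ hτ x v

end Vale.Agent.P140.NU
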