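import Vale.Agent.P140.H725.Mom

/-!
# P140: passage to the limit in the Gaussian moments and in the energy
-/

set_option linter.all false

open MeasureTheory Set Filter
open scoped ENNReal Topology NNReal

noncomputable section

namespace Vale.Agent.P140.NU

/-- truncated Gaussian weight -/
def gwR (R : ℕ) (v : V) : ℝ := if ‖v‖ ≤ R then Real.exp (‖v‖ ^ 2 / 32) else 0

theorem measurable_gwR (R : ℕ) : Measurable (gwR R) := by
  unfold gwR
  refine Measurable.ite (measurableSet_le measurable_norm measurable_const) ?_ measurable_const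
  apply Continuous.measurable
  fun_prop

theorem gwR_nonneg (R : ℕ) (v : V) : 0 ≤ gwR R v := by
  unfold gwR
  split_ifs
  · exact (Real.exp_pos _).le
  · exact le_rfl

theorem gwR_le (R : ℕ) (v : V) : gwR R v ≤ Real.exp ((R : ℝ) ^ 2 / 32) := by
  unfold gwR
  split_ifs with h
  · apply Real.exp_le_exp.2
    have := pow_le_pow_left₀ (norm_nonneg v) h 2
    linarith
  · exact (Real.exp_pos _).le

theorem gwR_le_gw (R : ℕ) (v : V) : ENNReal.ofReal (gwR R v) ≤ gw v := by
  unfold gwR gw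
  split_ifs
  · exact le_rfl
  · simp

theorem iSup_gwR (v : V) : ⨆ R : ℕ, ENNReal.ofReal (gwR R v) = gw v := by
  apply le_antisymm (iSup_le fun R => gwR_le_gw R v)
  obtain ⟨R, hR⟩ := exists_nat_ge ‖v‖
  refine le_iSup_of_le R ?_
  unfold gwR gw
  rw [if_pos hR]

theorem gwR_mono (v : V) : Monotone fun R : ℕ => ENNReal.ofReal (gwR R v) := by
  intro a b hab
  simp only
  unfold gwR
  by_cases h : ‖v‖ ≤ a
  · rw [if_pos h, if_pos (h.trans (by exact_mod_cast hab))]
  · rw [if_neg h]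
    simp

/-- weak convergence at one time -/
def WC (F : ℕ → T3 → V → ℝ) (L : T3 → V → ℝ) : Prop :=
  ∀ θ : T3 × V → ℝ, Measurable θ → (∃ B, ∀ p, |θ p| ≤ B) →
    Tendsto (fun n => ∫ p : T3 × V, F n p.1 p.2 * θ p) atTop (𝓝 (∫ p : T3 × V, L p.1 p.2 * θ p))

theorem lint_eq_int {f : T3 → V → ℝ} (mf : Measurable fun p : T3 × V => f p.1 p.2)
    (f0 : ∀ x v, 0 ≤ f x v) (hf : Integrable fun p : T3 × V => f p.1 p.2) {θ : T3 × V → ℝ}
    (mθ : Measurable θ) (θ0 : ∀ p, 0 ≤ θ p) {B : ℝ} (hB : ∀ p, |θ p| ≤ B) :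
    ∫⁻ p : T3 × V, ENNReal.ofReal (f p.1 p.2) * ENNReal.ofReal (θ p) =
      ENNReal.ofReal (∫ p : T3 × V, f p.1 p.2 * θ p) := by
  rw [ofReal_integral_eq_lintegral_ofReal]
  · refine lintegral_congr fun p => ?_
    rw [ENNReal.ofReal_mul (f0 _ _)]
  · exact hf.mul_bdd (c := B) mθ.aestronglyMeasurable (Eventually.of_forall hB)
  · exact Eventually.of_forall fun p => mul_nonneg (f0 _ _) (θ0 _)

/-- the Gaussian moment bound passes to the weak limit -/
theorem lim_moment {F : ℕ → T3 → V → ℝ} {L : T3 → V → ℝ} (hW : WC F L)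
    (mF : ∀ n, Measurable fun p : T3 × V => F n p.1 p.2) (F0 : ∀ n x v, 0 ≤ F n x v)
    (iF : ∀ n, Integrable fun p : T3 × V => F n p.1 p.2)
    (mL : Measurable fun p : T3 × V => L p.1 p.2) (L0 : ∀ x v, 0 ≤ L x v)
    (iL : Integrable fun p : T3 × V => L p.1 p.2) {t C : ℝ} (ht : 0 < t) (hC : 0 ≤ C)
    (hb : ∀ n x, ∫⁻ v, ENNReal.ofReal (F n x v) * gw v ≤ ENNReal.ofReal (C / (t + rr x))) :
    ∀ᵐ x : T3, ∫⁻ v, ENNReal.ofReal (L x v) * gw v ≤ ENNReal.ofReal (C / (t + rr x)) := by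
  have hpos : ∀ x : T3, 0 < t + rr x := fun x => by
    have := rr_nonneg x
    linarith
  have mrr : Measurable fun x : T3 => ENNReal.ofReal (t + rr x) :=
    (continuous_rr.measurable.const_add t).ennreal_ofReal
  have hR : ∀ R : ℕ, (fun x : T3 => ENNReal.ofReal (t + rr x) *
      ∫⁻ v, ENNReal.ofReal (L x v) * ENNReal.ofReal (gwR R v)) ≤ᵐ[volume]
      fun _ => ENNReal.ofReal C := by
    intro R
    have mg : Measurable fun x : T3 => ENNReal.ofReal (t + rr x) *
        ∫⁻ v, ENNReal.ofReal (L x v) * ENNReal.ofReal (gwR R v) := by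
      refine mrr.mul ?_
      exact Measurable.lintegral_prod_right' (f := fun p : T3 × V => ENNReal.ofReal (L p.1 p.2) *
        ENNReal.ofReal (gwR R p.2)) (mL.ennreal_ofReal.mul
          ((measurable_gwR R).comp measurable_snd).ennreal_ofReal)
    refine ae_le_of_forall_setLIntegral_le_of_sigmaFinite mg fun E hE _ => ?_
    set θ : T3 × V → ℝ := fun p => E.indicator (fun _ => 1) p.1 * ((t + rr p.1) * gwR R p.2) with hθ
    have mθ : Measurable θ := by
      refine ((measurable_const.indicator hE).comp measurable_fst).mul ?_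
      exact ((continuous_rr.measurable.const_add t).comp measurable_fst).mul
        ((measurable_gwR R).comp measurable_snd)
    have θ0 : ∀ p, 0 ≤ θ p := fun p => by
      refine mul_nonneg ?_ (mul_nonneg (hpos _).le (gwR_nonneg R _))
      exact indicator_nonneg (fun _ _ => zero_le_one) _
    have hB : ∀ p, |θ p| ≤ (t + 1) * Real.exp ((R : ℝ) ^ 2 / 32) := fun p => by
      rw [abs_of_nonneg (θ0 p)]
      have h1 : E.indicator (fun _ => (1 : ℝ)) p.1 ≤ 1 := indicator_le_self' (fun _ _ => zero_le_one) _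
      have h2 : (t + rr p.1) * gwR R p.2 ≤ (t + 1) * Real.exp ((R : ℝ) ^ 2 / 32) := by
        have := bt_rr_le p.1
        exact mul_le_mul (by linarith) (gwR_le R _) (gwR_nonneg R _) (by linarith)
      calc θ p ≤ 1 * ((t + rr p.1) * gwR R p.2) :=
            mul_le_mul_of_nonneg_right h1 (mul_nonneg (hpos _).le (gwR_nonneg R _))
        _ ≤ _ := by rw [one_mul]; exact h2
    -- the integral of a function against θ
    have key : ∀ f : T3 → V → ℝ, (Measurable fun p : T3 × V => f p.1 p.2) → (∀ x v, 0 ≤ f x v) →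
        ∫⁻ p : T3 × V, ENNReal.ofReal (f p.1 p.2) * ENNReal.ofReal (θ p) =
        ∫⁻ x in E, ENNReal.ofReal (t + rr x) *
          ∫⁻ v, ENNReal.ofReal (f x v) * ENNReal.ofReal (gwR R v) := by
      intro f mf f0
      have m1 : Measurable fun p : T3 × V => ENNReal.ofReal (f p.1 p.2) * ENNReal.ofReal (θ p) :=
        mf.ennreal_ofReal.mul mθ.ennreal_ofReal
      rw [Measure.volume_eq_prod, lintegral_prod _ m1.aemeasurable, ← lintegral_indicator hE]
      refine lintegral_congr fun x => ?_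
      by_cases hx : x ∈ E
      · rw [indicator_of_mem hx, ← lintegral_const_mul' _ _ ENNReal.ofReal_ne_top]
        refine lintegral_congr fun v => ?_
        simp only [hθ, indicator_of_mem hx, one_mul]
        rw [ENNReal.ofReal_mul (hpos x).le]
        ring
      · rw [indicator_of_notMem hx]
        simp only [hθ, indicator_of_notMem hx, zero_mul, ENNReal.ofReal_zero, mul_zero,
          lintegral_zero]
    have hF : ∀ n, ∫ p : T3 × V, F n p.1 p.2 * θ p ≤ C * (volume E).toReal := by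
      intro n
      have h1 := lint_eq_int (mF n) (F0 n) (iF n) mθ θ0 hB
      rw [key _ (mF n) (F0 n)] at h1
      have h2 : ∫⁻ x in E, ENNReal.ofReal (t + rr x) *
          ∫⁻ v, ENNReal.ofReal (F n x v) * ENNReal.ofReal (gwR R v) ≤
          ENNReal.ofReal (C * (volume E).toReal) := by
        calc _ ≤ ∫⁻ x in E, ENNReal.ofReal C := by
              refine lintegral_mono fun x => ?_
              calc ENNReal.ofReal (t + rr x) *
                    ∫⁻ v, ENNReal.ofReal (F n x v) * ENNReal.ofReal (gwR R v)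
                  ≤ ENNReal.ofReal (t + rr x) * ENNReal.ofReal (C / (t + rr x)) := by
                    refine mul_le_mul' le_rfl (le_trans (lintegral_mono fun v => ?_) (hb n x))
                    exact mul_le_mul' le_rfl (gwR_le_gw R v)
                _ = ENNReal.ofReal C := by
                    rw [← ENNReal.ofReal_mul (hpos x).le, mul_div_cancel₀ _ (hpos x).ne']
          _ = ENNReal.ofReal C * volume E := by rw [setLIntegral_const]
          _ = _ := by
              rw [ENNReal.ofReal_mul hC, ENNReal.ofReal_toReal (measure_ne_top _ _)]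
      rw [h1] at h2
      exact (ENNReal.ofReal_le_ofReal_iff (by positivity)).1 h2
    have hL : ∫ p : T3 × V, L p.1 p.2 * θ p ≤ C * (volume E).toReal :=
      le_of_tendsto' (hW θ mθ ⟨_, hB⟩) hF
    rw [← key L mL L0, lint_eq_int mL L0 iL mθ θ0 hB, setLIntegral_const]
    refine (ENNReal.ofReal_le_ofReal hL).trans (le_of_eq ?_)
    rw [ENNReal.ofReal_mul hC, ENNReal.ofReal_toReal (measure_ne_top _ _)]
  have hall : ∀ᵐ x : T3, ∀ R : ℕ, ENNReal.ofReal (t + rr x) *
      ∫⁻ v, ENNReal.ofReal (L x v) * ENNReal.ofReal (gwR R v) ≤ ENNReal.ofReal C :=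
    ae_all_iff.2 hR
  filter_upwards [hall] with x hx
  have mx : Measurable fun v : V => ENNReal.ofReal (L x v) :=
    (mL.comp (measurable_prodMk_left (x := x))).ennreal_ofReal
  have h1 : ∫⁻ v, ENNReal.ofReal (L x v) * gw v =
      ⨆ R : ℕ, ∫⁻ v, ENNReal.ofReal (L x v) * ENNReal.ofReal (gwR R v) := by
    have h2 := lintegral_iSup (μ := (volume : Measure V))
      (f := fun (R : ℕ) (v : V) => ENNReal.ofReal (L x v) * ENNReal.ofReal (gwR R v))
      (fun R => mx.mul (measurable_gwR R).ennreal_ofReal)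
      (fun a b hab v => mul_le_mul' le_rfl (gwR_mono v hab))
    rw [← h2]
    refine lintegral_congr fun v => ?_
    rw [← iSup_gwR, ENNReal.mul_iSup]
  rw [h1]
  refine iSup_le fun R => ?_
  have h2 := hx R
  rw [ENNReal.ofReal_div_of_pos (hpos x), ENNReal.le_div_iff_mul_le (by simp [hpos x]) (by simp)]
  rw [mul_comm]
  exact h2

/-- total Gaussian moment -/
theorem tot_moment {f : T3 → V → ℝ} (mf : Measurable fun p : T3 × V => f p.1 p.2) {t C : ℝ}
    (ht : 0 < t) (hC : 0 ≤ C)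
    (hb : ∀ᵐ x, ∫⁻ v, ENNReal.ofReal (f x v) * gw v ≤ ENNReal.ofReal (C / (t + rr x))) :
    ∫⁻ p : T3 × V, ENNReal.ofReal (f p.1 p.2) * gw p.2 ≤ ENNReal.ofReal (C / t) := by
  have m1 : Measurable fun p : T3 × V => ENNReal.ofReal (f p.1 p.2) * gw p.2 :=
    mf.ennreal_ofReal.mul (measurable_gw.comp measurable_snd)
  rw [Measure.volume_eq_prod, lintegral_prod _ m1.aemeasurable]
  calc ∫⁻ x, ∫⁻ v, ENNReal.ofReal (f x v) * gw v ≤ ∫⁻ _ : T3, ENNReal.ofReal (C / t) := by
        refine lintegral_mono_ae ?_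
        filter_upwards [hb] with x hx
        refine hx.trans (ENNReal.ofReal_le_ofReal ?_)
        have := rr_nonneg x
        gcongr
        linarith
    _ = ENNReal.ofReal (C / t) := by
        rw [lintegral_const, measure_univ, mul_one]

/-- truncated square -/
def sqR (R : ℕ) (v : V) : ℝ := if ‖v‖ ≤ R then ‖v‖ ^ 2 else 0

theorem measurable_sqR (R : ℕ) : Measurable (sqR R) := by
  unfold sqR
  exact Measurable.ite (measurableSet_le measurable_norm measurable_const)
    (measurable_norm.pow_const 2) measurable_const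

theorem sqR_nonneg (R : ℕ) (v : V) : 0 ≤ sqR R v := by
  unfold sqR
  split_ifs
  · positivity
  · exact le_rfl

theorem sqR_le (R : ℕ) (v : V) : sqR R v ≤ (R : ℝ) ^ 2 := by
  unfold sqR
  split_ifs with h
  · exact pow_le_pow_left₀ (norm_nonneg v) h 2
  · positivity

theorem sqR_le_sq (R : ℕ) (v : V) : sqR R v ≤ ‖v‖ ^ 2 := by
  unfold sqR
  split_ifs
  · exact le_rfl
  · positivity

theorem exp_ge_quart (s : ℝ) : s ^ 4 / 2048 ≤ Real.exp (s ^ 2 / 32) := by
  have h := Real.quadratic_le_exp_of_nonneg (show 0 ≤ s ^ 2 / 32 by positivity)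
  have h2 : 0 ≤ s ^ 2 / 32 := by positivity
  nlinarith only [h, h2]

theorem sq_le_sqR {R : ℕ} (hR : 1 ≤ R) (v : V) :
    ‖v‖ ^ 2 ≤ sqR R v + 4096 / (R : ℝ) ^ 2 * Real.exp (‖v‖ ^ 2 / 32) := by
  have hR0 : (0 : ℝ) < R := by exact_mod_cast hR
  unfold sqR
  split_ifs with h
  · have := Real.exp_pos (‖v‖ ^ 2 / 32)
    have : 0 ≤ 4096 / (R : ℝ) ^ 2 * Real.exp (‖v‖ ^ 2 / 32) := by positivity
    linarith
  · have h1 := exp_ge_quart ‖v‖
    have h2 : (R : ℝ) ^ 2 ≤ ‖v‖ ^ 2 := pow_le_pow_left₀ hR0.le (not_le.1 h).le 2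
    have h3 : 4096 / (R : ℝ) ^ 2 * (‖v‖ ^ 4 / 2048) ≤
        4096 / (R : ℝ) ^ 2 * Real.exp (‖v‖ ^ 2 / 32) := by gcongr
    have h4 : ‖v‖ ^ 2 ≤ 4096 / (R : ℝ) ^ 2 * (‖v‖ ^ 4 / 2048) := by
      have e : 4096 / (R : ℝ) ^ 2 * (‖v‖ ^ 4 / 2048) = 2 * ‖v‖ ^ 4 / (R : ℝ) ^ 2 := by ring
      rw [e, le_div_iff₀ (by positivity)]
      have h5 : 0 ≤ ‖v‖ ^ 2 := by positivity
      nlinarith only [h2, h5, mul_le_mul_of_nonneg_left h2 h5]
    linarith

/-- energy -/
def en (f : T3 → V → ℝ) : ℝ≥0∞ := ∫⁻ p : T3 × V, ENNReal.ofReal (‖p.2‖ ^ 2 * f p.1 p.2)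

theorem en_eq {f : T3 → V → ℝ} (mf : Measurable fun p : T3 × V => f p.1 p.2) :
    wInt psi2 f = wInt psi0 f + en f := by
  unfold wInt en psi2 psi0
  have m1 : Measurable fun p : T3 × V => (1 : ℝ≥0∞) * ENNReal.ofReal (f p.1 p.2) :=
    mf.ennreal_ofReal.const_mul _
  rw [← lintegral_add_left m1]
  refine lintegral_congr fun p => ?_
  rw [ENNReal.ofReal_add zero_le_one (by positivity), ENNReal.ofReal_one, add_mul,
    ENNReal.ofReal_mul (by positivity : (0 : ℝ) ≤ ‖p.2‖ ^ 2)]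

theorem en_le_add {f g : T3 → V → ℝ} (mf : Measurable fun p : T3 × V => f p.1 p.2)
    (g0 : ∀ x v, 0 ≤ g x v) (f0 : ∀ x v, 0 ≤ f x v) : en g ≤ en f + wDist psi2 f g := by
  unfold en wDist psi2
  have m1 : Measurable fun p : T3 × V => ENNReal.ofReal (‖p.2‖ ^ 2 * f p.1 p.2) :=
    ((measurable_snd.norm.pow_const 2).mul mf).ennreal_ofReal
  rw [← lintegral_add_left m1]
  refine lintegral_mono fun p => ?_
  beta_reduce
  rw [← ENNReal.ofReal_mul (by positivity), ← ENNReal.ofReal_add (mul_nonneg (by positivity)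
    (f0 _ _)) (by positivity)]
  apply ENNReal.ofReal_le_ofReal
  have h1 := neg_abs_le (f p.1 p.2 - g p.1 p.2)
  have h2 : 0 ≤ ‖p.2‖ ^ 2 := by positivity
  have h3 := abs_nonneg (f p.1 p.2 - g p.1 p.2)
  nlinarith only [h1, h2, h3, mul_nonneg h2 h3]

/-- no loss of energy in the limit -/
theorem lim_energy {F : ℕ → T3 → V → ℝ} {L : T3 → V → ℝ} (hW : WC F L)
    (mF : ∀ n, Measurable fun p : T3 × V => F n p.1 p.2) (F0 : ∀ n x v, 0 ≤ F n x v)
    (iF : ∀ n, Integrable fun p : T3 × V => F n p.1 p.2)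
    (mL : Measurable fun p : T3 × V => L p.1 p.2) (L0 : ∀ x v, 0 ≤ L x v)
    (iL : Integrable fun p : T3 × V => L p.1 p.2) {t C : ℝ} (ht : 0 < t) (hC : 0 ≤ C)
    (hb : ∀ n x, ∫⁻ v, ENNReal.ofReal (F n x v) * gw v ≤ ENNReal.ofReal (C / (t + rr x)))
    {D : ℕ → T3 → V → ℝ} {D0 : T3 → V → ℝ} (mD : ∀ n, Measurable fun p : T3 × V => D n p.1 p.2)
    (hD : ∀ n x v, 0 ≤ D n x v) (hD0 : ∀ x v, 0 ≤ D0 x v) (he : ∀ n, en (D n) ≤ en (F n))
    (hconv : Tendsto (fun n => wDist psi2 (D n) D0) atTop (𝓝 0)) : en D0 ≤ en L := by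
  have hR : ∀ R : ℕ, 1 ≤ R → en D0 ≤ en L + ENNReal.ofReal (4096 / (R : ℝ) ^ 2 * (C / t)) := by
    intro R hR1
    have hR0 : (0 : ℝ) < R := by exact_mod_cast hR1
    set θ : T3 × V → ℝ := fun p => sqR R p.2 with hθ
    have mθ : Measurable θ := (measurable_sqR R).comp measurable_snd
    have θ0 : ∀ p, 0 ≤ θ p := fun p => sqR_nonneg R _
    have hB : ∀ p, |θ p| ≤ (R : ℝ) ^ 2 := fun p => by
      rw [abs_of_nonneg (θ0 p)]
      exact sqR_le R _
    have h1 : ∀ n, en D0 ≤ ENNReal.ofReal (∫ p : T3 × V, F n p.1 p.2 * θ p) +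
        ENNReal.ofReal (4096 / (R : ℝ) ^ 2 * (C / t)) + wDist psi2 (D n) D0 := by
      intro n
      refine (en_le_add (mD n) hD0 (hD n)).trans (add_le_add ((he n).trans ?_) le_rfl)
      rw [← lint_eq_int (mF n) (F0 n) (iF n) mθ θ0 hB]
      have m1 : Measurable fun p : T3 × V => ENNReal.ofReal (F n p.1 p.2) * ENNReal.ofReal (θ p) :=
        (mF n).ennreal_ofReal.mul mθ.ennreal_ofReal
      have h2 := tot_moment (mF n) ht hC (Eventually.of_forall (hb n))
      have h3 : ENNReal.ofReal (4096 / (R : ℝ) ^ 2) *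
          ∫⁻ p : T3 × V, ENNReal.ofReal (F n p.1 p.2) * gw p.2 ≤
          ENNReal.ofReal (4096 / (R : ℝ) ^ 2 * (C / t)) := by
        rw [ENNReal.ofReal_mul (by positivity)]
        exact mul_le_mul' le_rfl h2
      refine le_trans ?_ (add_le_add le_rfl h3)
      rw [← lintegral_const_mul' _ _ ENNReal.ofReal_ne_top, ← lintegral_add_left m1]
      unfold en
      refine lintegral_mono fun p => ?_
      beta_reduce
      have h4 := sq_le_sqR hR1 p.2
      have hF := F0 n p.1 p.2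
      unfold gw
      rw [← ENNReal.ofReal_mul hF, ← ENNReal.ofReal_mul hF, ← ENNReal.ofReal_mul (by positivity),
        ← ENNReal.ofReal_add (mul_nonneg hF (θ0 p)) (by positivity)]
      apply ENNReal.ofReal_le_ofReal
      calc ‖p.2‖ ^ 2 * F n p.1 p.2 ≤
            (sqR R p.2 + 4096 / (R : ℝ) ^ 2 * Real.exp (‖p.2‖ ^ 2 / 32)) * F n p.1 p.2 :=
            mul_le_mul_of_nonneg_right h4 hF
        _ = _ := by ring
    have h2 : Tendsto (fun n => ENNReal.ofReal (∫ p : T3 × V, F n p.1 p.2 * θ p) +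
        ENNReal.ofReal (4096 / (R : ℝ) ^ 2 * (C / t)) + wDist psi2 (D n) D0) atTop
        (𝓝 (ENNReal.ofReal (∫ p : T3 × V, L p.1 p.2 * θ p) +
        ENNReal.ofReal (4096 / (R : ℝ) ^ 2 * (C / t)) + 0)) :=
      ((ENNReal.tendsto_ofReal (hW θ mθ ⟨_, hB⟩)).add tendsto_const_nhds).add hconv
    have h3 := ge_of_tendsto' h2 h1
    refine h3.trans ?_
    rw [add_zero, ← lint_eq_int mL L0 iL mθ θ0 hB]
    refine add_le_add (lintegral_mono fun p => ?_) le_rfl
    rw [← ENNReal.ofReal_mul (L0 _ _)]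
    apply ENNReal.ofReal_le_ofReal
    have := sqR_le_sq R p.2
    have h5 := L0 p.1 p.2
    nlinarith only [this, h5]
  have h4 : Tendsto (fun R : ℕ => en L + ENNReal.ofReal (4096 / (R : ℝ) ^ 2 * (C / t))) atTop
      (𝓝 (en L + ENNReal.ofReal (0 * (C / t)))) := by
    refine tendsto_const_nhds.add (ENNReal.tendsto_ofReal (Tendsto.mul_const _ ?_))
    have h5 : Tendsto (fun R : ℕ => (R : ℝ) ^ 2) atTop atTop :=
      (tendsto_pow_atTop (by norm_num)).comp tendsto_natCast_atTop_atTop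
    exact tendsto_const_nhds.div_atTop h5
  rw [zero_mul, ENNReal.ofReal_zero, add_zero] at h4
  exact ge_of_tendsto h4 ((eventually_ge_atTop 1).mono hR)

end Vale.Agent.P140.NU
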