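import Vale.Agent.P140.H725.Fam

/-!
# P140: local conservation laws of the truncated problems
-/

set_option linter.all false

open MeasureTheory Set Filter
open scoped ENNReal Topology NNReal

noncomputable section

namespace Vale.Agent.P140.DL

variable {n : ℕ} {F0 : T3 → V → ℝ} {F : ℝ → T3 → V → ℝ}

/-- local balance of `χ` for a bounded function `χ` of the velocity which is orthogonal to the
collision operator -/
theorem IsBM.h725_loc (h : IsBM n F0 F) (hm : wInt psi2 F0 < ⊤) {χ : V → ℝ} (mχ : Measurable χ)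
    {K : ℝ} (bχ : ∀ v, |χ v| ≤ K) (hQ : ∀ t, 0 ≤ t → ∀ x, ∫ v, QN n F t x v * χ v = 0)
    {φ : ℝ → T3 → ℝ} (hφ : IsTestX φ) :
    (∫ p : ℝ × T3 × V in Ioi 0 ×ˢ univ,
        F p.1 p.2.1 p.2.2 * (χ p.2.2 * transport φ p.1 p.2.1 p.2.2))
      + ∫ p : T3 × V, F0 p.1 p.2 * (χ p.2 * φ 0 p.1) = 0 := by
  obtain ⟨T, hT, h0, h0'⟩ := hφ.exists_time
  obtain ⟨C, hC, hCb⟩ := hφ.transport_bound
  obtain ⟨C1, hC1, hC1b⟩ := hφ.bounded
  have hK : 0 ≤ K := (abs_nonneg _).trans (bχ 0)
  -- restriction to bounded times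
  have e1 : ∫ p : ℝ × T3 × V in Ioi 0 ×ˢ univ,
      F p.1 p.2.1 p.2.2 * (χ p.2.2 * transport φ p.1 p.2.1 p.2.2)
      = ∫ q : ℝ × T3 × V, F q.1 q.2.1 q.2.2 * (χ q.2.2 * transport φ q.1 q.2.1 q.2.2)
        ∂((volume.restrict (Ioc 0 T)).prod volume) := by
    rw [← restrict_prod_univ]
    apply setIntegral_eq_of_subset_of_forall_sdiff_eq_zero
      (measurableSet_Ioi.prod MeasurableSet.univ)
    · exact Set.prod_mono Ioc_subset_Ioi_self (Subset.refl _)
    · intro p hp
      have h2 : T ≤ |p.1| := by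
        by_contra hlt
        apply hp.2
        have h3 := (not_le.mp hlt)
        rw [abs_of_pos hp.1.1] at h3
        exact ⟨⟨hp.1.1, h3.le⟩, mem_univ _⟩
      rw [h0' _ _ _ h2, mul_zero, mul_zero]
  have mχ3 : Measurable fun q : ℝ × T3 × V => χ q.2.2 := mχ.comp measurable_snd.snd
  have i1 : Integrable (fun q : ℝ × T3 × V => F q.1 q.2.1 q.2.2 *
      (χ q.2.2 * transport φ q.1 q.2.1 q.2.2)) ((volume.restrict (Ioc 0 T)).prod volume) :=
    h.integrable_psi2 (C := K * C) hm T (mχ3.mul hφ.measurable_transport) fun q => by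
      rw [abs_mul, mul_assoc]
      exact mul_le_mul (bχ _) (hCb _ _ _) (abs_nonneg _) hK
  have mφ : Measurable fun q : ℝ × T3 × V => φ q.1 q.2.1 :=
    hφ.continuous.measurable.comp (by fun_prop : Measurable fun q : ℝ × T3 × V => (q.1, q.2.1))
  have i2 : Integrable (fun q : ℝ × T3 × V => QN n F q.1 q.2.1 q.2.2 * (χ q.2.2 * φ q.1 q.2.1))
      ((volume.restrict (Ioc 0 T)).prod volume) :=
    h.integrable_QN (C := K * C1) T (mχ3.mul mφ) fun q => by
      rw [abs_mul]
      exact mul_le_mul (bχ _) (hC1b _ _) (abs_nonneg _) hK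
  -- free streaming
  have mp := measurePreserving_stFlow (volume.restrict (Ioc 0 T))
  have e2 : ∫ q : ℝ × T3 × V, F q.1 q.2.1 q.2.2 * (χ q.2.2 * transport φ q.1 q.2.1 q.2.2)
        ∂((volume.restrict (Ioc 0 T)).prod volume)
      = ∫ q : ℝ × T3 × V, along F q *
        (χ q.2.2 * transport φ q.1 (q.2.1 + toTorus (q.1 • q.2.2)) q.2.2)
        ∂((volume.restrict (Ioc 0 T)).prod volume) :=
    (mp.integral_comp measurableEmbedding_stFlow
      (fun q : ℝ × T3 × V => F q.1 q.2.1 q.2.2 *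
        (χ q.2.2 * transport φ q.1 q.2.1 q.2.2))).symm
  have e3 : ∫ q : ℝ × T3 × V, QN n F q.1 q.2.1 q.2.2 * (χ q.2.2 * φ q.1 q.2.1)
        ∂((volume.restrict (Ioc 0 T)).prod volume)
      = ∫ q : ℝ × T3 × V, along (QN n F) q * (χ q.2.2 * φ q.1 (q.2.1 + toTorus (q.1 • q.2.2)))
        ∂((volume.restrict (Ioc 0 T)).prod volume) :=
    (mp.integral_comp measurableEmbedding_stFlow
      (fun q : ℝ × T3 × V => QN n F q.1 q.2.1 q.2.2 * (χ q.2.2 * φ q.1 q.2.1))).symm
  have i1' : Integrable (fun q : ℝ × T3 × V => along F q *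
      (χ q.2.2 * transport φ q.1 (q.2.1 + toTorus (q.1 • q.2.2)) q.2.2))
      ((volume.restrict (Ioc 0 T)).prod volume) :=
    (mp.integrable_comp_emb measurableEmbedding_stFlow).mpr i1
  have i2' : Integrable (fun q : ℝ × T3 × V => along (QN n F) q *
      (χ q.2.2 * φ q.1 (q.2.1 + toTorus (q.1 • q.2.2))))
      ((volume.restrict (Ioc 0 T)).prod volume) :=
    (mp.integrable_comp_emb measurableEmbedding_stFlow).mpr i2
  have i3 : Integrable fun p : T3 × V => F0 p.1 p.2 * (χ p.2 * φ 0 p.1) := by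
    have hF0 : Integrable fun p : T3 × V => F0 p.1 p.2 := by
      refine ⟨h.meas0.aestronglyMeasurable, ?_⟩
      unfold HasFiniteIntegral
      refine lt_of_le_of_lt (lintegral_mono fun p => ?_) hm
      rw [← ofReal_norm, Real.norm_of_nonneg (h.nonneg0 _ _)]
      have h1 := psi0_le_psi2 p.2
      unfold psi0 at h1
      calc ENNReal.ofReal (F0 p.1 p.2) = 1 * ENNReal.ofReal (F0 p.1 p.2) := (one_mul _).symm
        _ ≤ _ := by (clear * - h1; gcongr)
    refine hF0.mul_bdd (c := K * C1) ?_ (Eventually.of_forall fun p => ?_)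
    · exact ((mχ.comp measurable_snd).mul (hφ.continuous.measurable.comp
        (by fun_prop : Measurable fun p : T3 × V => ((0 : ℝ), p.1)))).aestronglyMeasurable
    · rw [Real.norm_eq_abs, abs_mul]
      exact mul_le_mul (bχ _) (hC1b _ _) (abs_nonneg _) hK
  -- the collision term vanishes
  have e4 : ∫ q : ℝ × T3 × V, QN n F q.1 q.2.1 q.2.2 * (χ q.2.2 * φ q.1 q.2.1)
        ∂((volume.restrict (Ioc 0 T)).prod volume) = 0 := by
    rw [integral_prod _ i2]
    apply setIntegral_eq_zero_of_forall_eq_zero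
    intro t ht
    simp only
    by_cases hi : Integrable (fun p : T3 × V => QN n F t p.1 p.2 * (χ p.2 * φ t p.1))
    · rw [Measure.volume_eq_prod, integral_prod _ (by rwa [← Measure.volume_eq_prod])]
      apply integral_eq_zero_of_ae
      apply Eventually.of_forall
      intro x
      simp only
      have h5 : ∀ v, QN n F t x v * (χ v * φ t x) = QN n F t x v * χ v * φ t x := fun v => by ring
      simp only [h5]
      rw [integral_mul_const, hQ t ht.1.le, zero_mul]
      rfl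
    · exact integral_undef hi
  rw [e1, e2, integral_prod_symm _ i1']
  have e5 : ∫ p : T3 × V, ∫ t in Ioc 0 T, along F (t, p) *
        (χ p.2 * transport φ t (p.1 + toTorus (t • p.2)) p.2)
      = ∫ p : T3 × V, (-(∫ t in Ioc 0 T, along (QN n F) (t, p) *
          (χ p.2 * φ t (p.1 + toTorus (t • p.2)))) - F0 p.1 p.2 * (χ p.2 * φ 0 p.1)) := by
    congr 1
    funext p
    have h6 := h.line_identity hφ hT h0 p
    have a1 : ∫ t in Ioc 0 T, along F (t, p) *
        (χ p.2 * transport φ t (p.1 + toTorus (t • p.2)) p.2) =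
        χ p.2 * ∫ t in Ioc 0 T, along F (t, p) * transport φ t (p.1 + toTorus (t • p.2)) p.2 := by
      rw [← integral_const_mul]
      congr 1
      funext t
      ring
    have a2 : ∫ t in Ioc 0 T, along (QN n F) (t, p) * (χ p.2 * φ t (p.1 + toTorus (t • p.2))) =
        χ p.2 * ∫ t in Ioc 0 T, along (QN n F) (t, p) * φ t (p.1 + toTorus (t • p.2)) := by
      rw [← integral_const_mul]
      congr 1
      funext t
      ring
    rw [a1, a2, h6]
    ring
  have i4 : Integrable fun p : T3 × V => ∫ t in Ioc 0 T, along (QN n F) (t, p) *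
      (χ p.2 * φ t (p.1 + toTorus (t • p.2))) := i2'.integral_prod_right
  have i5 : Integrable fun p : T3 × V => -∫ t in Ioc 0 T, along (QN n F) (t, p) *
      (χ p.2 * φ t (p.1 + toTorus (t • p.2))) := i4.neg
  rw [e5, integral_sub i5 i3, integral_neg, ← integral_prod_symm _ i2', ← e3, e4]
  ring

/-- local balance of a collision invariant, for data with bounded velocities -/
theorem IsBM.h725_local (h : IsBM n F0 F) (hm : wInt psi2 F0 < ⊤)
    (hsup : ∀ x v, (n : ℝ) < ‖v‖ → F0 x v = 0) {ψ : V → ℝ} (mψ : Measurable ψ)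
    {K : ℝ} (bψ : ∀ v, ‖v‖ ≤ n → |ψ v| ≤ K)
    (inv : ∀ v w o, ψ (post v w o) + ψ (postStar v w o) = ψ v + ψ w)
    {φ : ℝ → T3 → ℝ} (hφ : IsTestX φ) :
    (∫ p : ℝ × T3 × V in Ioi 0 ×ˢ univ,
        F p.1 p.2.1 p.2.2 * (ψ p.2.2 * transport φ p.1 p.2.1 p.2.2))
      + ∫ p : T3 × V, F0 p.1 p.2 * (ψ p.2 * φ 0 p.1) = 0 := by
  classical
  set χ : V → ℝ := fun v => if ‖v‖ ≤ n then ψ v else 0 with hχ
  have hK : 0 ≤ K := (abs_nonneg _).trans (bψ 0 (by simp))
  have mχ : Measurable χ :=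
    Measurable.ite (measurableSet_le measurable_norm measurable_const) mψ measurable_const
  have bχ : ∀ v, |χ v| ≤ K := by
    intro v
    simp only [hχ]
    split_ifs with h1
    · exact bψ v h1
    · simpa using hK
  have hQ : ∀ t, 0 ≤ t → ∀ x, ∫ v, QN n F t x v * χ v = 0 := by
    intro t ht x
    obtain ⟨B, hB⟩ := h.bdd t
    have h1 := coll_cons n (measurable_slice h.meas t x) (h.nonneg t x)
      (fun v hv => hB t ⟨ht, le_rfl⟩ x v hv) mψ bψ inv
    rw [← h1, ← integral_indicator Metric.isClosed_closedBall.measurableSet]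
    congr 1
    funext v
    by_cases hv : v ∈ Metric.closedBall (0 : V) (n : ℝ)
    · rw [indicator_of_mem hv]
      have hv' : ‖v‖ ≤ n := by simpa using hv
      simp only [hχ, if_pos hv']
      unfold QN
      ring
    · rw [indicator_of_notMem hv]
      have hv' : ¬ ‖v‖ ≤ n := by simpa using hv
      simp only [hχ, if_neg hv', mul_zero]
  have hz : ∀ t, 0 ≤ t → ∀ x v, ¬ ‖v‖ ≤ n → F t x v = 0 := by
    intro t ht x v hv
    have hv' := not_le.1 hv
    have h1 := h.eq_of_lt (p := flow (-t) (x, v)) (by simpa [flow] using hv') ht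
    rw [along_flow_neg] at h1
    rw [h1]
    exact hsup _ _ (by simpa [flow] using hv')
  have h2 := h.h725_loc hm mχ bχ hQ hφ
  refine Eq.trans ?_ h2
  have e1 : ∫ p : ℝ × T3 × V in Ioi 0 ×ˢ univ,
        F p.1 p.2.1 p.2.2 * (ψ p.2.2 * transport φ p.1 p.2.1 p.2.2) =
      ∫ p : ℝ × T3 × V in Ioi 0 ×ˢ univ,
        F p.1 p.2.1 p.2.2 * (χ p.2.2 * transport φ p.1 p.2.1 p.2.2) := by
    refine setIntegral_congr_fun (measurableSet_Ioi.prod MeasurableSet.univ) fun p hp => ?_
    have hp0 : (0 : ℝ) < p.1 := hp.1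
    simp only [hχ]
    split_ifs with h3
    · rfl
    · rw [hz p.1 hp0.le _ _ h3]
      ring
  have e2 : ∫ p : T3 × V, F0 p.1 p.2 * (ψ p.2 * φ 0 p.1) =
      ∫ p : T3 × V, F0 p.1 p.2 * (χ p.2 * φ 0 p.1) := by
    congr 1
    funext p
    simp only [hχ]
    split_ifs with h3
    · rfl
    · rw [hsup _ _ (not_le.1 h3)]
      ring
  rw [e1, e2]

end Vale.Agent.P140.DL
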