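import Vale.Agent.P140.H725.Loc

/-!
# P140: passage to the limit in the local conservation laws
-/

set_option linter.all false

open MeasureTheory Set Filter
open scoped ENNReal Topology NNReal

noncomputable section

namespace Vale.Agent.P140.NU

/-- the inverse distance to the line is integrable -/
theorem lint_inv_rr : ∫⁻ x : T3, ENNReal.ofReal (1 / rr x) ≤ ENNReal.ofReal 16 := by
  have hpt : ∀ x : T3, ENNReal.ofReal (1 / rr x) ≤
      ∑' k : ℕ, {x : T3 | rr x ≤ (1 / 2 : ℝ) ^ k}.indicator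
        (fun _ => ENNReal.ofReal ((2 : ℝ) ^ (k + 1))) x := by
    intro x
    rcases (rr_nonneg x).eq_or_lt with h0 | h0
    · rw [← h0]
      simp
    · obtain ⟨k, hk1, hk2⟩ := exists_nat_pow_near_of_lt_one h0 (bt_rr_le x)
        (show (0 : ℝ) < 1 / 2 by norm_num) (show (1 / 2 : ℝ) < 1 by norm_num)
      refine le_trans ?_ (ENNReal.le_tsum k)
      rw [indicator_of_mem (show x ∈ {x : T3 | rr x ≤ (1 / 2 : ℝ) ^ k} from hk2)]
      apply ENNReal.ofReal_le_ofReal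
      rw [div_le_iff₀ h0]
      have e : (2 : ℝ) ^ (k + 1) * (1 / 2 : ℝ) ^ (k + 1) = 1 := by
        rw [← mul_pow]
        norm_num
      calc (1 : ℝ) = (2 : ℝ) ^ (k + 1) * (1 / 2 : ℝ) ^ (k + 1) := e.symm
        _ ≤ _ := by gcongr
  calc ∫⁻ x : T3, ENNReal.ofReal (1 / rr x)
      ≤ ∫⁻ x : T3, ∑' k : ℕ, {x : T3 | rr x ≤ (1 / 2 : ℝ) ^ k}.indicator
        (fun _ => ENNReal.ofReal ((2 : ℝ) ^ (k + 1))) x := lintegral_mono hpt
    _ = ∑' k : ℕ, ∫⁻ x : T3, {x : T3 | rr x ≤ (1 / 2 : ℝ) ^ k}.indicator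
        (fun _ => ENNReal.ofReal ((2 : ℝ) ^ (k + 1))) x :=
        lintegral_tsum fun k => (measurable_const.indicator (Med.measurableSet_tube _)).aemeasurable
    _ ≤ ∑' k : ℕ, ENNReal.ofReal (8 * (1 / 2 : ℝ) ^ k) := by
        refine ENNReal.tsum_le_tsum fun k => ?_
        rw [lintegral_indicator (Med.measurableSet_tube _), setLIntegral_const]
        refine (mul_le_mul' le_rfl (Med.vol_tube (by positivity))).trans ?_
        rw [← ENNReal.ofReal_mul (by positivity)]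
        apply ENNReal.ofReal_le_ofReal
        have e : (2 : ℝ) ^ k * (1 / 2 : ℝ) ^ k = 1 := by
          rw [← mul_pow]
          norm_num
        calc (2 : ℝ) ^ (k + 1) * (4 * ((1 / 2 : ℝ) ^ k) ^ 2)
            = 8 * ((2 : ℝ) ^ k * (1 / 2 : ℝ) ^ k) * (1 / 2 : ℝ) ^ k := by ring
          _ ≤ 8 * (1 / 2 : ℝ) ^ k := by rw [e]; linarith
    _ = ENNReal.ofReal 16 := by
        rw [← ENNReal.ofReal_tsum_of_nonneg (fun k => by positivity)
          ((summable_geometric_of_lt_one (by norm_num) (by norm_num)).mul_left 8),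
          tsum_mul_left, tsum_geometric_of_lt_one (by norm_num) (by norm_num)]
        norm_num

theorem ae_rr_pos : ∀ᵐ x : T3, 0 < rr x := by
  have h := Med.vol_tube (ρ := 0) le_rfl
  rw [ae_iff]
  refine le_antisymm (le_trans (le_of_eq ?_) (h.trans (by simp))) zero_le
  congr 1
  ext x
  simp only [mem_setOf_eq, not_lt]

/-- total Gaussian moment, uniformly in time -/
theorem tot_unif {f : T3 → V → ℝ} (mf : Measurable fun p : T3 × V => f p.1 p.2) {t C : ℝ}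
    (ht : 0 ≤ t) (hC : 0 ≤ C)
    (hb : ∀ᵐ x, ∫⁻ v, ENNReal.ofReal (f x v) * gw v ≤ ENNReal.ofReal (C / (t + rr x))) :
    ∫⁻ p : T3 × V, ENNReal.ofReal (f p.1 p.2) * gw p.2 ≤ ENNReal.ofReal (C * 16) := by
  have m1 : Measurable fun p : T3 × V => ENNReal.ofReal (f p.1 p.2) * gw p.2 :=
    mf.ennreal_ofReal.mul (measurable_gw.comp measurable_snd)
  rw [Measure.volume_eq_prod, lintegral_prod _ m1.aemeasurable]
  calc ∫⁻ x, ∫⁻ v, ENNReal.ofReal (f x v) * gw v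
      ≤ ∫⁻ x : T3, ENNReal.ofReal C * ENNReal.ofReal (1 / rr x) := by
        refine lintegral_mono_ae ?_
        filter_upwards [hb, ae_rr_pos] with x hx hr
        refine hx.trans ?_
        rw [← ENNReal.ofReal_mul hC]
        apply ENNReal.ofReal_le_ofReal
        rw [mul_one_div]
        gcongr
        linarith
    _ = ENNReal.ofReal C * ∫⁻ x : T3, ENNReal.ofReal (1 / rr x) :=
        lintegral_const_mul' _ _ ENNReal.ofReal_ne_top
    _ ≤ ENNReal.ofReal C * ENNReal.ofReal 16 := mul_le_mul' le_rfl lint_inv_rr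
    _ = _ := by rw [← ENNReal.ofReal_mul hC]

theorem cube_le_exp {s : ℝ} (hs : 0 ≤ s) : (1 + s) ^ 3 ≤ 20000 * Real.exp (s ^ 2 / 32) := by
  have h1 := exp_ge_quart s
  have h2 : 1 ≤ Real.exp (s ^ 2 / 32) := Real.one_le_exp (by positivity)
  rcases le_total s 1 with h | h
  · have : (1 + s) ^ 3 ≤ 2 ^ 3 := pow_le_pow_left₀ (by linarith) (by linarith) 3
    linarith
  · have h3 : (1 + s) ^ 3 ≤ (2 * s) ^ 3 := pow_le_pow_left₀ (by linarith) (by linarith) 3
    have h4 : s ^ 3 ≤ s ^ 4 := pow_le_pow_right₀ h (by norm_num)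
    nlinarith only [h1, h3, h4, h2]

theorem cube_le_exp_R {s R : ℝ} (hR : 1 ≤ R) (hs : R < s) :
    (1 + s) ^ 3 ≤ 16384 / R * Real.exp (s ^ 2 / 32) := by
  have h1 := exp_ge_quart s
  have h0 : 0 < R := by linarith
  have hs1 : 1 ≤ s := by linarith
  have h3 : (1 + s) ^ 3 ≤ (2 * s) ^ 3 := pow_le_pow_left₀ (by linarith) (by linarith) 3
  rw [div_mul_eq_mul_div, le_div_iff₀ h0]
  have h4 : R * s ^ 3 ≤ s ^ 4 := by
    have : 0 ≤ s ^ 3 := by positivity
    nlinarith only [this, hs, mul_le_mul_of_nonneg_right hs.le this]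
  nlinarith only [h1, h3, h4, mul_le_mul_of_nonneg_right h3 h0.le]

/-- integrability against a Gaussian weight -/
theorem int_exp {f : T3 → V → ℝ} (mf : Measurable fun p : T3 × V => f p.1 p.2)
    (f0 : ∀ x v, 0 ≤ f x v) {K : ℝ} (hK : 0 ≤ K)
    (hf : ∫⁻ p : T3 × V, ENNReal.ofReal (f p.1 p.2) * gw p.2 ≤ ENNReal.ofReal K) :
    Integrable (fun p : T3 × V => f p.1 p.2 * Real.exp (‖p.2‖ ^ 2 / 32)) ∧
      ∫ p : T3 × V, f p.1 p.2 * Real.exp (‖p.2‖ ^ 2 / 32) ≤ K := by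
  have me : Measurable fun p : T3 × V => Real.exp (‖p.2‖ ^ 2 / 32) := by
    apply Continuous.measurable
    fun_prop
  have h0 : ∀ p : T3 × V, 0 ≤ f p.1 p.2 * Real.exp (‖p.2‖ ^ 2 / 32) := fun p =>
    mul_nonneg (f0 _ _) (Real.exp_pos _).le
  have e : ∫⁻ p : T3 × V, ENNReal.ofReal (f p.1 p.2 * Real.exp (‖p.2‖ ^ 2 / 32)) ≤
      ENNReal.ofReal K := by
    refine le_trans (le_of_eq (lintegral_congr fun p => ?_)) hf
    rw [ENNReal.ofReal_mul (f0 _ _)]
    rfl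
  have hi : Integrable (fun p : T3 × V => f p.1 p.2 * Real.exp (‖p.2‖ ^ 2 / 32)) :=
    DL.s5_integrable_of_lint (mf.mul me) h0 (e.trans_lt ENNReal.ofReal_lt_top)
  refine ⟨hi, ?_⟩
  rw [← ofReal_integral_eq_lintegral_ofReal hi (Eventually.of_forall h0)] at e
  exact (ENNReal.ofReal_le_ofReal_iff hK).1 e

theorem int_le_exp {f : T3 → V → ℝ} (mf : Measurable fun p : T3 × V => f p.1 p.2)
    (f0 : ∀ x v, 0 ≤ f x v) {K : ℝ} (hK : 0 ≤ K)
    (hf : ∫⁻ p : T3 × V, ENNReal.ofReal (f p.1 p.2) * gw p.2 ≤ ENNReal.ofReal K)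
    {θ : T3 × V → ℝ} (mθ : Measurable θ) {A : ℝ} (hA : 0 ≤ A)
    (hθ : ∀ p, |θ p| ≤ A * Real.exp (‖p.2‖ ^ 2 / 32)) :
    Integrable (fun p : T3 × V => f p.1 p.2 * θ p) ∧ |∫ p : T3 × V, f p.1 p.2 * θ p| ≤ A * K := by
  obtain ⟨hi, hb⟩ := int_exp mf f0 hK hf
  have hpt : ∀ p : T3 × V, ‖f p.1 p.2 * θ p‖ ≤ A * (f p.1 p.2 * Real.exp (‖p.2‖ ^ 2 / 32)) := by
    intro p
    rw [Real.norm_eq_abs, abs_mul, abs_of_nonneg (f0 _ _)]
    have := mul_le_mul_of_nonneg_left (hθ p) (f0 p.1 p.2)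
    linarith
  refine ⟨(hi.const_mul A).mono' (mf.mul mθ).aestronglyMeasurable (Eventually.of_forall hpt), ?_⟩
  refine (norm_integral_le_of_norm_le (hi.const_mul A) (Eventually.of_forall hpt)).trans ?_
  rw [integral_const_mul]
  exact mul_le_mul_of_nonneg_left hb hA

/-- weak convergence against weights of cubic growth -/
theorem wc_ext {F : ℕ → T3 → V → ℝ} {L : T3 → V → ℝ} (hW : WC F L)
    (mF : ∀ n, Measurable fun p : T3 × V => F n p.1 p.2) (F0 : ∀ n x v, 0 ≤ F n x v)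
    (mL : Measurable fun p : T3 × V => L p.1 p.2) (L0 : ∀ x v, 0 ≤ L x v) {K : ℝ} (hK : 0 ≤ K)
    (hF : ∀ n, ∫⁻ p : T3 × V, ENNReal.ofReal (F n p.1 p.2) * gw p.2 ≤ ENNReal.ofReal K)
    (hL : ∫⁻ p : T3 × V, ENNReal.ofReal (L p.1 p.2) * gw p.2 ≤ ENNReal.ofReal K)
    {θ : T3 × V → ℝ} (mθ : Measurable θ) {C1 : ℝ} (hC1 : 0 ≤ C1)
    (hθ : ∀ p, |θ p| ≤ C1 * (1 + ‖p.2‖) ^ 3) :
    Tendsto (fun n => ∫ p : T3 × V, F n p.1 p.2 * θ p) atTop
      (𝓝 (∫ p : T3 × V, L p.1 p.2 * θ p)) := by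
  rw [Metric.tendsto_atTop]
  intro ε hε
  obtain ⟨R, hR⟩ := exists_nat_gt (max 1 (C1 * 16384 * K * 4 / ε))
  have hR1 : (1 : ℝ) ≤ R := (le_max_left _ _).trans hR.le
  have hR0 : (0 : ℝ) < R := by linarith
  have hR2 : C1 * (16384 / R) * K ≤ ε / 4 := by
    have h1 := (le_max_right _ _).trans hR.le
    rw [div_le_iff₀ hε] at h1
    have e : C1 * (16384 / R) * K = C1 * 16384 * K / R := by ring
    rw [e, div_le_iff₀ hR0]
    nlinarith only [h1]
  set θR : T3 × V → ℝ := fun p => if ‖p.2‖ ≤ R then θ p else 0 with hθR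
  have mθR : Measurable θR :=
    Measurable.ite (measurableSet_le measurable_snd.norm measurable_const) mθ measurable_const
  have bθR : ∀ p, |θR p| ≤ C1 * (1 + R) ^ 3 := by
    intro p
    simp only [hθR]
    split_ifs with h
    · refine (hθ p).trans ?_
      gcongr
    · rw [abs_zero]
      positivity
  have hdiff : ∀ p, |θ p - θR p| ≤ C1 * (16384 / R) * Real.exp (‖p.2‖ ^ 2 / 32) := by
    intro p
    simp only [hθR]
    split_ifs with h
    · rw [sub_self, abs_zero]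
      have := Real.exp_pos (‖p.2‖ ^ 2 / 32)
      positivity
    · rw [sub_zero, mul_assoc]
      refine (hθ p).trans ?_
      exact mul_le_mul_of_nonneg_left (cube_le_exp_R hR1 (not_le.1 h)) hC1
  have hθ' : ∀ p, |θ p| ≤ C1 * 20000 * Real.exp (‖p.2‖ ^ 2 / 32) := by
    intro p
    rw [mul_assoc]
    exact (hθ p).trans (mul_le_mul_of_nonneg_left (cube_le_exp (norm_nonneg _)) hC1)
  have hθR' : ∀ p, |θR p| ≤ C1 * 20000 * Real.exp (‖p.2‖ ^ 2 / 32) := by
    intro p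
    simp only [hθR]
    split_ifs with h
    · exact hθ' p
    · rw [abs_zero]
      have := Real.exp_pos (‖p.2‖ ^ 2 / 32)
      positivity
  have key : ∀ f : T3 → V → ℝ, (Measurable fun p : T3 × V => f p.1 p.2) → (∀ x v, 0 ≤ f x v) →
      (∫⁻ p : T3 × V, ENNReal.ofReal (f p.1 p.2) * gw p.2 ≤ ENNReal.ofReal K) →
      |(∫ p : T3 × V, f p.1 p.2 * θ p) - ∫ p : T3 × V, f p.1 p.2 * θR p| ≤ ε / 4 := by
    intro f mf f0 hf
    have a1 := (int_le_exp mf f0 hK hf mθ (A := C1 * 20000) (by positivity) hθ').1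
    have a2 := (int_le_exp mf f0 hK hf mθR (A := C1 * 20000) (by positivity) hθR').1
    rw [← integral_sub a1 a2]
    have a3 := (int_le_exp mf f0 hK hf (mθ.sub mθR) (A := C1 * (16384 / R)) (by positivity)
      hdiff).2
    refine le_trans (le_of_eq ?_) (a3.trans hR2)
    congr 1
    congr 1
    funext p
    simp only [Pi.sub_apply]
    ring
  obtain ⟨n0, hn0⟩ := Metric.tendsto_atTop.1 (hW θR mθR ⟨_, bθR⟩) (ε / 4) (by positivity)
  refine ⟨n0, fun n hn => ?_⟩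
  have b1 := key _ (mF n) (F0 n) (hF n)
  have b2 := key _ mL L0 hL
  have b3 := hn0 n hn
  rw [Real.dist_eq] at b3 ⊢
  rw [abs_le] at b1 b2
  rw [abs_lt] at b3 ⊢
  constructor <;> linarith

end Vale.Agent.P140.NU
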