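import Vale.Agent.P140.H725.LocLim

/-!
# P140: the local conservation laws hold in the limit, up to the time of the Gaussian bound
-/

set_option linter.all false

open MeasureTheory Set Filter
open scoped ENNReal Topology NNReal

noncomputable section

namespace Vale.Agent.P140.NU

theorem transport_zero {φ : ℝ → T3 → ℝ} {t0 : ℝ} (h : ∀ s x, t0 ≤ |s| → φ s x = 0) {s : ℝ}
    (hs : t0 < s) (x : T3) (v : V) : transport φ s x v = 0 := by
  unfold transport
  have h1 : (fun u : ℝ => φ (s + u) (x + toTorus (u • v))) =ᶠ[𝓝 0] fun _ => 0 := by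
    have h2 : ∀ᶠ u : ℝ in 𝓝 0, t0 < s + u := by
      have h3 : Tendsto (fun u : ℝ => s + u) (𝓝 0) (𝓝 (s + 0)) :=
        tendsto_const_nhds.add tendsto_id
      rw [add_zero] at h3
      exact h3.eventually (lt_mem_nhds hs)
    filter_upwards [h2] with u hu
    exact h _ _ (hu.le.trans (le_abs_self _))
  rw [h1.deriv_eq]
  exact deriv_const _ _

/-- integrability in time and phase space -/
theorem int_st {f : ℝ → T3 → V → ℝ} (mf : Measurable fun q : ℝ × T3 × V => f q.1 q.2.1 q.2.2)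
    (f0 : ∀ t x v, 0 ≤ f t x v) {t0 K : ℝ} (hK : 0 ≤ K)
    (hf : ∀ t ∈ Ioc 0 t0, ∫⁻ p : T3 × V, ENNReal.ofReal (f t p.1 p.2) * gw p.2 ≤ ENNReal.ofReal K)
    {g : ℝ × T3 × V → ℝ} (mg : Measurable g) {A : ℝ} (hA : 0 ≤ A)
    (hg : ∀ q, |g q| ≤ A * Real.exp (‖q.2.2‖ ^ 2 / 32)) :
    Integrable (fun q : ℝ × T3 × V => f q.1 q.2.1 q.2.2 * g q)
      ((volume.restrict (Ioc 0 t0)).prod volume) := by
  refine ⟨(mf.mul mg).aestronglyMeasurable, ?_⟩
  unfold HasFiniteIntegral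
  have mF : Measurable fun q : ℝ × T3 × V =>
      ENNReal.ofReal (f q.1 q.2.1 q.2.2) * gw q.2.2 :=
    mf.ennreal_ofReal.mul (measurable_gw.comp measurable_snd.snd)
  calc ∫⁻ q : ℝ × T3 × V, ‖f q.1 q.2.1 q.2.2 * g q‖ₑ ∂((volume.restrict (Ioc 0 t0)).prod volume)
      ≤ ∫⁻ q : ℝ × T3 × V, ENNReal.ofReal A * (ENNReal.ofReal (f q.1 q.2.1 q.2.2) * gw q.2.2)
          ∂((volume.restrict (Ioc 0 t0)).prod volume) := by
        refine lintegral_mono fun q => ?_
        beta_reduce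
        rw [← ofReal_norm, norm_mul, Real.norm_of_nonneg (f0 _ _ _), Real.norm_eq_abs]
        unfold gw
        rw [← ENNReal.ofReal_mul (f0 _ _ _), ← ENNReal.ofReal_mul hA]
        apply ENNReal.ofReal_le_ofReal
        have := mul_le_mul_of_nonneg_left (hg q) (f0 q.1 q.2.1 q.2.2)
        linarith
    _ = ENNReal.ofReal A * ∫⁻ t in Ioc 0 t0,
          ∫⁻ p : T3 × V, ENNReal.ofReal (f t p.1 p.2) * gw p.2 := by
        rw [lintegral_const_mul _ mF, lintegral_prod _ mF.aemeasurable]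
    _ ≤ ENNReal.ofReal A * ∫⁻ t in Ioc 0 t0, ENNReal.ofReal K := by
        refine mul_le_mul' le_rfl (setLIntegral_mono' measurableSet_Ioc hf)
    _ < ⊤ := by
        rw [setLIntegral_const, Real.volume_Ioc]
        exact ENNReal.mul_lt_top ENNReal.ofReal_lt_top
          (ENNReal.mul_lt_top ENNReal.ofReal_lt_top ENNReal.ofReal_lt_top)

/-- the local conservation laws pass to the limit -/
theorem lim_local {t0 : ℝ} (ht0 : 0 < t0) {F : ℕ → ℝ → T3 → V → ℝ} {L : ℝ → T3 → V → ℝ}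
    {D : ℕ → T3 → V → ℝ} {D0 : T3 → V → ℝ}
    (hW : ∀ t ∈ Ioc 0 t0, WC (fun n => F n t) (L t))
    (mF : ∀ n, Measurable fun q : ℝ × T3 × V => F n q.1 q.2.1 q.2.2) (F0 : ∀ n t x v, 0 ≤ F n t x v)
    (mL : Measurable fun q : ℝ × T3 × V => L q.1 q.2.1 q.2.2) (L0 : ∀ t x v, 0 ≤ L t x v)
    {K : ℝ} (hK : 0 ≤ K)
    (hF : ∀ n, ∀ t ∈ Ioc 0 t0, ∫⁻ p : T3 × V, ENNReal.ofReal (F n t p.1 p.2) * gw p.2 ≤
      ENNReal.ofReal K)
    (hL : ∀ t ∈ Ioc 0 t0, ∫⁻ p : T3 × V, ENNReal.ofReal (L t p.1 p.2) * gw p.2 ≤ ENNReal.ofReal K)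
    (mD : ∀ n, Measurable fun p : T3 × V => D n p.1 p.2) (hD : ∀ n x v, 0 ≤ D n x v)
    (fD : ∀ n, wInt psi2 (D n) < ⊤) (mD0 : Measurable fun p : T3 × V => D0 p.1 p.2)
    (hD0 : ∀ x v, 0 ≤ D0 x v) (fD0 : wInt psi2 D0 < ⊤)
    (hconv : Tendsto (fun n => wDist psi2 (D n) D0) atTop (𝓝 0))
    {ψ : V → ℝ} (mψ : Measurable ψ) {c : ℝ} (hc : 0 ≤ c) (hψ : ∀ v, |ψ v| ≤ c * (1 + ‖v‖ ^ 2))
    {φ : ℝ → T3 → ℝ} (hφ : IsTestX φ) (hsup : ∀ s x, t0 ≤ |s| → φ s x = 0)
    (hloc : ∀ n, (∫ p : ℝ × T3 × V in Ioi 0 ×ˢ univ,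
        F n p.1 p.2.1 p.2.2 * (ψ p.2.2 * transport φ p.1 p.2.1 p.2.2))
      + ∫ p : T3 × V, D n p.1 p.2 * (ψ p.2 * φ 0 p.1) = 0) :
    (∫ p : ℝ × T3 × V in Ioi 0 ×ˢ univ,
        L p.1 p.2.1 p.2.2 * (ψ p.2.2 * transport φ p.1 p.2.1 p.2.2))
      + ∫ p : T3 × V, D0 p.1 p.2 * (ψ p.2 * φ 0 p.1) = 0 := by
  obtain ⟨C, hC, hCb⟩ := hφ.transport_bound
  obtain ⟨C1, hC1, hC1b⟩ := hφ.bounded
  set g : ℝ × T3 × V → ℝ := fun q => ψ q.2.2 * transport φ q.1 q.2.1 q.2.2 with hg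
  have mg : Measurable g := (mψ.comp measurable_snd.snd).mul hφ.measurable_transport
  have bg : ∀ q, |g q| ≤ c * C * (1 + ‖q.2.2‖) ^ 3 := by
    intro q
    simp only [hg]
    rw [abs_mul]
    have h1 := norm_nonneg q.2.2
    calc |ψ q.2.2| * |transport φ q.1 q.2.1 q.2.2|
        ≤ (c * (1 + ‖q.2.2‖ ^ 2)) * (C * (1 + ‖q.2.2‖)) :=
          mul_le_mul (hψ _) (hCb _ _ _) (abs_nonneg _) (by positivity)
      _ = c * C * ((1 + ‖q.2.2‖ ^ 2) * (1 + ‖q.2.2‖)) := by ring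
      _ ≤ c * C * (1 + ‖q.2.2‖) ^ 3 := by
          refine mul_le_mul_of_nonneg_left ?_ (mul_nonneg hc hC)
          nlinarith only [h1, sq_nonneg ‖q.2.2‖, mul_nonneg h1 (sq_nonneg ‖q.2.2‖)]
  have bg' : ∀ q, |g q| ≤ c * C * 20000 * Real.exp (‖q.2.2‖ ^ 2 / 32) := by
    intro q
    rw [mul_assoc (c * C)]
    exact (bg q).trans (mul_le_mul_of_nonneg_left (cube_le_exp (norm_nonneg _))
      (mul_nonneg hc hC))
  have hA : 0 ≤ c * C * 20000 := by positivity
  -- time integrals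
  have hst : ∀ f : ℝ → T3 → V → ℝ, (Measurable fun q : ℝ × T3 × V => f q.1 q.2.1 q.2.2) →
      (∀ t x v, 0 ≤ f t x v) →
      (∀ t ∈ Ioc 0 t0, ∫⁻ p : T3 × V, ENNReal.ofReal (f t p.1 p.2) * gw p.2 ≤ ENNReal.ofReal K) →
      ∫ p : ℝ × T3 × V in Ioi 0 ×ˢ univ,
        f p.1 p.2.1 p.2.2 * (ψ p.2.2 * transport φ p.1 p.2.1 p.2.2) =
      ∫ t in Ioc 0 t0, ∫ p : T3 × V, f t p.1 p.2 * g (t, p) := by
    intro f mf f0 hf
    have e1 : ∫ p : ℝ × T3 × V in Ioi 0 ×ˢ univ,
        f p.1 p.2.1 p.2.2 * (ψ p.2.2 * transport φ p.1 p.2.1 p.2.2)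
        = ∫ q : ℝ × T3 × V, f q.1 q.2.1 q.2.2 * g q ∂((volume.restrict (Ioc 0 t0)).prod volume) := by
      rw [← restrict_prod_univ]
      apply setIntegral_eq_of_subset_of_forall_sdiff_eq_zero
        (measurableSet_Ioi.prod MeasurableSet.univ)
      · exact Set.prod_mono Ioc_subset_Ioi_self (Subset.refl _)
      · intro p hp
        have h2 : t0 < p.1 := by
          by_contra hlt
          apply hp.2
          exact ⟨⟨hp.1.1, not_lt.mp hlt⟩, mem_univ _⟩
        rw [transport_zero hsup h2, mul_zero, mul_zero]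
    rw [e1, integral_prod _ (int_st mf f0 hK hf mg hA bg')]
  -- convergence of the main term
  have hmain : Tendsto (fun n => ∫ p : ℝ × T3 × V in Ioi 0 ×ˢ univ,
        F n p.1 p.2.1 p.2.2 * (ψ p.2.2 * transport φ p.1 p.2.1 p.2.2)) atTop
      (𝓝 (∫ p : ℝ × T3 × V in Ioi 0 ×ˢ univ,
        L p.1 p.2.1 p.2.2 * (ψ p.2.2 * transport φ p.1 p.2.1 p.2.2))) := by
    rw [hst L mL L0 hL]
    simp only [fun n => hst (F n) (mF n) (F0 n) (hF n)]
    have slice : ∀ f : ℝ → T3 → V → ℝ, (Measurable fun q : ℝ × T3 × V => f q.1 q.2.1 q.2.2) →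
        ∀ t, Measurable fun p : T3 × V => f t p.1 p.2 := fun f mf t =>
      mf.comp (measurable_const.prodMk measurable_id)
    have gslice : ∀ t, Measurable fun p : T3 × V => g (t, p) := fun t =>
      mg.comp (measurable_const.prodMk measurable_id)
    refine tendsto_integral_of_dominated_convergence (fun _ => c * C * 20000 * K) ?_ ?_ ?_ ?_
    · intro n
      exact (int_st (mF n) (F0 n) hK (hF n) mg hA bg').integral_prod_left.aestronglyMeasurable
    · exact integrable_const _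
    · intro n
      filter_upwards [ae_restrict_mem measurableSet_Ioc] with t ht
      exact (int_le_exp (slice _ (mF n) t) (F0 n t) hK (hF n t ht) (gslice t) hA
        fun p => bg' (t, p)).2
    · filter_upwards [ae_restrict_mem measurableSet_Ioc] with t ht
      exact wc_ext (hW t ht) (fun n => slice _ (mF n) t) (fun n => F0 n t) (slice _ mL t) (L0 t) hK
        (fun n => hF n t ht) (hL t ht) (gslice t) (mul_nonneg hc hC) fun p => bg (t, p)
  -- convergence of the initial term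
  have hini : Tendsto (fun n => ∫ p : T3 × V, D n p.1 p.2 * (ψ p.2 * φ 0 p.1)) atTop
      (𝓝 (∫ p : T3 × V, D0 p.1 p.2 * (ψ p.2 * φ 0 p.1))) := by
    have mφ0 : Measurable fun p : T3 × V => φ 0 p.1 := hφ.continuous.measurable.comp
        (by fun_prop : Measurable fun p : T3 × V => ((0 : ℝ), p.1))
    have mθ : Measurable fun p : T3 × V => ψ p.2 * φ 0 p.1 := (mψ.comp measurable_snd).mul mφ0
    have bθ : ∀ p : T3 × V, |ψ p.2 * φ 0 p.1| ≤ c * C1 * (1 + ‖p.2‖ ^ 2) := by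
      intro p
      rw [abs_mul]
      calc |ψ p.2| * |φ 0 p.1| ≤ (c * (1 + ‖p.2‖ ^ 2)) * C1 :=
            mul_le_mul (hψ _) (hC1b _ _) (abs_nonneg _) (by positivity)
        _ = _ := by ring
    have ik : ∀ f : T3 → V → ℝ, (Measurable fun p : T3 × V => f p.1 p.2) → (∀ x v, 0 ≤ f x v) →
        wInt psi2 f < ⊤ → Integrable fun p : T3 × V => f p.1 p.2 * (ψ p.2 * φ 0 p.1) := by
      intro f mf f0 hf
      have h1 : Integrable fun p : T3 × V => (1 + ‖p.2‖ ^ 2) * f p.1 p.2 := by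
        refine DL.s5_integrable_of_lint
          (((measurable_snd.norm.pow_const 2).const_add 1).mul mf)
          (fun p => mul_nonneg (by positivity) (f0 _ _)) (lt_of_le_of_lt (le_of_eq ?_) hf)
        unfold wInt psi2
        refine lintegral_congr fun p => ?_
        rw [ENNReal.ofReal_mul (by positivity)]
      refine (h1.const_mul (c * C1)).mono' (mf.mul mθ).aestronglyMeasurable
        (Eventually.of_forall fun p => ?_)
      rw [Real.norm_eq_abs, abs_mul, abs_of_nonneg (f0 _ _)]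
      have := mul_le_mul_of_nonneg_left (bθ p) (f0 p.1 p.2)
      linarith
    rw [tendsto_iff_norm_sub_tendsto_zero]
    have h2 : ∀ n, ‖(∫ p : T3 × V, D n p.1 p.2 * (ψ p.2 * φ 0 p.1)) -
        ∫ p : T3 × V, D0 p.1 p.2 * (ψ p.2 * φ 0 p.1)‖ ≤
        (ENNReal.ofReal (c * C1) * wDist psi2 (D n) D0).toReal := by
      intro n
      rw [← integral_sub (ik _ (mD n) (hD n) (fD n)) (ik _ mD0 hD0 fD0)]
      refine (norm_integral_le_lintegral_norm _).trans ?_
      refine ENNReal.toReal_mono ?_ ?_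
      · refine ENNReal.mul_ne_top ENNReal.ofReal_ne_top (ne_top_of_le_ne_top
          (ENNReal.add_lt_top.2 ⟨fD n, fD0⟩).ne ?_)
        unfold wDist wInt
        have m1 : Measurable fun p : T3 × V => psi2 p.2 * ENNReal.ofReal (D n p.1 p.2) :=
          (measurable_psi2.comp measurable_snd).mul (mD n).ennreal_ofReal
        rw [← lintegral_add_left m1]
        refine lintegral_mono fun p => ?_
        beta_reduce
        rw [← mul_add, ← ENNReal.ofReal_add (hD n _ _) (hD0 _ _)]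
        refine mul_le_mul' le_rfl (ENNReal.ofReal_le_ofReal ?_)
        rw [abs_le]
        have a1 := hD n p.1 p.2
        have a2 := hD0 p.1 p.2
        constructor <;> linarith
      · unfold wDist
        rw [← lintegral_const_mul' _ _ ENNReal.ofReal_ne_top]
        refine lintegral_mono fun p => ?_
        beta_reduce
        unfold psi2
        rw [← ENNReal.ofReal_mul (by positivity), ← ENNReal.ofReal_mul (by positivity)]
        apply ENNReal.ofReal_le_ofReal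
        rw [← sub_mul, Real.norm_eq_abs, abs_mul]
        have := mul_le_mul_of_nonneg_left (bθ p) (abs_nonneg (D n p.1 p.2 - D0 p.1 p.2))
        linarith
    refine squeeze_zero (fun _ => norm_nonneg _) h2 ?_
    have h3 : Tendsto (fun n => ENNReal.ofReal (c * C1) * wDist psi2 (D n) D0) atTop
        (𝓝 (ENNReal.ofReal (c * C1) * 0)) :=
      ENNReal.Tendsto.const_mul hconv (Or.inr ENNReal.ofReal_ne_top)
    rw [mul_zero] at h3
    have h4 := (ENNReal.tendsto_toReal ENNReal.zero_ne_top).comp h3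
    rw [ENNReal.toReal_zero] at h4
    exact h4
  have hsum := hmain.add hini
  have hz : (fun n => (∫ p : ℝ × T3 × V in Ioi 0 ×ˢ univ,
        F n p.1 p.2.1 p.2.2 * (ψ p.2.2 * transport φ p.1 p.2.1 p.2.2)) +
      ∫ p : T3 × V, D n p.1 p.2 * (ψ p.2 * φ 0 p.1)) = fun _ => 0 := funext hloc
  rw [hz] at hsum
  exact (tendsto_nhds_unique hsum tendsto_const_nhds)

end Vale.Agent.P140.NU
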