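import Vale.Agent.P140.H725.Fam2
import Vale.Agent.P140.H725.Defs

/-!
# P140: nonuniqueness without loss of energy, momentum or moments (proof)
-/

set_option linter.all false

open MeasureTheory Set Filter
open scoped ENNReal Topology NNReal

noncomputable section

namespace Vale.Agent.P140.NU

theorem h725_old : H725.Nonuniqueness := disproof fun _ _ => rfl

theorem h725_proj : H725.proj = toTorus := by
  funext x i
  rfl

theorem h725_sol {F0 : T3 → V → ℝ} {F : ℝ → T3 → V → ℝ} (h : IsRenormEntropySol F0 F) :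
    Stt.IsSol H725.proj (fun p => F0 p.1 p.2) (fun t p => F t p.1 p.2) :=
  stt_of_sol (fun _ _ => rfl) h

/-- the singular datum itself -/
theorem h725_datum {P : Par} (h : Med.Good P)
    (hbox : ∀ j, P.j0 ≤ j → ∀ x, P.lam ^ (j + 1) ≤ rr x →
      ENNReal.ofReal (P.amp j) * volume (Box P j x) ≤ ENNReal.ofReal (2 * P.c / rr x)) (x : T3) :
    ∫⁻ v : V, ENNReal.ofReal (coldInf P x v) * gw v ≤ ENNReal.ofReal (4 * P.c / rr x) := by
  have hc : 0 < P.c := lt_of_lt_of_le one_pos h.hc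
  calc ∫⁻ v : V, ENNReal.ofReal (coldInf P x v) * gw v
      ≤ ∫⁻ v : V, ENNReal.ofReal (coldInf P x v) * 2 := by
        refine lintegral_mono fun v => ?_
        beta_reduce
        rcases Med.coldInf_cases h x v with h0 | ⟨j, -, -, hb, -⟩
        · rw [h0, ENNReal.ofReal_zero, zero_mul, zero_mul]
        · exact mul_le_mul' le_rfl (gw_le_two (Med.norm_sq_le_of_Box h hb))
    _ = (∫⁻ v : V, ENNReal.ofReal (coldInf P x v)) * 2 := lintegral_mul_const' _ _ (by norm_num)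
    _ ≤ ENNReal.ofReal (2 * P.c / rr x) * ENNReal.ofReal 2 := by
        refine mul_le_mul' (h119_dens h hbox x) (le_of_eq ?_)
        norm_num
    _ = _ := by
        rw [← ENNReal.ofReal_mul (div_nonneg (by positivity) (rr_nonneg x))]
        congr 1
        ring

theorem h725_balance {F0 : T3 → V → ℝ} {L : ℝ → T3 → V → ℝ} {t : ℝ} {ψ : V → ℝ} {c : ℝ}
    (mψ : Measurable ψ) (hc : 0 ≤ c) (hψ : ∀ v, |ψ v| ≤ c * (1 + ‖v‖ ^ 2))
    (inv : ∀ v w o, ψ (post v w o) + ψ (postStar v w o) = ψ v + ψ w)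
    (h : ∀ (ψ : V → ℝ) (c : ℝ), Measurable ψ → 0 ≤ c → (∀ v, |ψ v| ≤ c * (1 + ‖v‖ ^ 2)) →
        (∀ v w o, ψ (post v w o) + ψ (postStar v w o) = ψ v + ψ w) →
        ∀ φ : ℝ → T3 → ℝ, IsTestX φ → (∀ s x, t ≤ |s| → φ s x = 0) →
        (∫ p : ℝ × T3 × V in Ioi 0 ×ˢ univ,
          L p.1 p.2.1 p.2.2 * (ψ p.2.2 * transport φ p.1 p.2.1 p.2.2))
        + ∫ p : T3 × V, F0 p.1 p.2 * (ψ p.2 * φ 0 p.1) = 0) :
    H725.Balance t (fun p => F0 p.1 p.2) (fun s p => L s p.1 p.2) ψ := by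
  intro φ h1 h2
  rw [h725_proj] at h1
  have h3 := h ψ c mψ hc hψ inv φ ⟨h1, t, fun s x hs => h2 s x hs.le⟩ h2
  rw [h725_proj]
  refine Eq.trans ?_ h3
  congr 1
  · congr 1
    funext p
    unfold transport
    ring
  · congr 1
    funext p
    ring

theorem h725_lossless {P : Par} {C t : ℝ} (hG : Med.Good P) (hC : 0 < C)
    (hbox : ∀ j, P.j0 ≤ j → ∀ x, P.lam ^ (j + 1) ≤ rr x →
      ENNReal.ofReal (P.amp j) * volume (Box P j x) ≤ ENNReal.ofReal (2 * P.c / rr x))
    {L : ℝ → T3 → V → ℝ} (hL : IsRenormEntropySol (coldInf P) L)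
    (h1 : ∀ s ∈ Ioc 0 t, (∀ᵐ x, ∫⁻ v, ENNReal.ofReal (L s x v) * gw v ≤
        ENNReal.ofReal (C / (s + rr x))) ∧ en (coldInf P) ≤ en (L s))
    (h : ∀ (ψ : V → ℝ) (c : ℝ), Measurable ψ → 0 ≤ c → (∀ v, |ψ v| ≤ c * (1 + ‖v‖ ^ 2)) →
        (∀ v w o, ψ (post v w o) + ψ (postStar v w o) = ψ v + ψ w) →
        ∀ φ : ℝ → T3 → ℝ, IsTestX φ → (∀ s x, t ≤ |s| → φ s x = 0) →
        (∫ p : ℝ × T3 × V in Ioi 0 ×ˢ univ,
          L p.1 p.2.1 p.2.2 * (ψ p.2.2 * transport φ p.1 p.2.1 p.2.2))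
        + ∫ p : T3 × V, coldInf P p.1 p.2 * (ψ p.2 * φ 0 p.1) = 0) :
    H725.Lossless (C + 4 * P.c) t (fun p => coldInf P p.1 p.2) (fun s p => L s p.1 p.2) := by
  have hc : 0 < P.c := lt_of_lt_of_le one_pos hG.hc
  have hini : ∀ᵐ p : T3 × V, L 0 p.1 p.2 = coldInf P p.1 p.2 := hL.initial
  constructor
  · intro s hs
    have conv : ∀ (f : T3 → V → ℝ), (∀ x v, 0 ≤ f x v) → ∀ x : T3,
        ∫⁻ v : V, ENNReal.ofReal (Real.exp (‖v‖ ^ 2 / 32) * f x v) =
        ∫⁻ v : V, ENNReal.ofReal (f x v) * gw v := by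
      intro f f0 x
      refine lintegral_congr fun v => ?_
      unfold gw
      rw [← ENNReal.ofReal_mul (f0 x v), mul_comm]
    rcases hs.1.eq_or_lt with h0 | h0
    · subst h0
      have h2 : ∀ᵐ x : T3, ∀ᵐ v : V, L 0 x v = coldInf P x v := by
        have h3 := hini
        rw [Measure.volume_eq_prod] at h3
        exact (Measure.ae_ae_of_ae_prod h3 :)
      filter_upwards [h2] with x hx
      show ∫⁻ v : V, ENNReal.ofReal (Real.exp (‖v‖ ^ 2 / 32) * L 0 x v) ≤ _
      rw [conv _ (hL.nonneg 0)]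
      have h4 : ∫⁻ v : V, ENNReal.ofReal (L 0 x v) * gw v =
          ∫⁻ v : V, ENNReal.ofReal (coldInf P x v) * gw v := by
        refine lintegral_congr_ae ?_
        filter_upwards [hx] with v hv
        rw [hv]
      rw [h4, zero_add]
      refine (h725_datum hG hbox x).trans (ENNReal.ofReal_le_ofReal ?_)
      show 4 * P.c / rr x ≤ (C + 4 * P.c) / rr x
      refine div_le_div_of_nonneg_right ?_ (rr_nonneg x)
      linarith
    · filter_upwards [(h1 s ⟨h0, hs.2⟩).1] with x hx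
      show ∫⁻ v : V, ENNReal.ofReal (Real.exp (‖v‖ ^ 2 / 32) * L s x v) ≤ _
      rw [conv _ (hL.nonneg s)]
      refine hx.trans (ENNReal.ofReal_le_ofReal ?_)
      show C / (s + rr x) ≤ (C + 4 * P.c) / (s + rr x)
      refine div_le_div_of_nonneg_right ?_ (by have := rr_nonneg x; linarith)
      linarith
  · intro s hs
    rcases hs.1.eq_or_lt with h0 | h0
    · subst h0
      refine lintegral_congr_ae ?_
      filter_upwards [hini] with p hp
      show ENNReal.ofReal (‖p.2‖ ^ 2 * L 0 p.1 p.2) = _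
      rw [hp]
    · exact le_antisymm (hL.energy s h0.le) (h1 s ⟨h0, hs.2⟩).2
  · intro i
    refine h725_balance (c := 1) ?_ zero_le_one ?_ ?_ h
    · apply Continuous.measurable
      fun_prop
    · intro v
      have e1 : |v i| ≤ ‖v‖ := by
        have := PiLp.norm_apply_le v i
        simpa [Real.norm_eq_abs] using this
      have := norm_nonneg v
      nlinarith only [e1, this, sq_nonneg (‖v‖ - 1)]
    · intro v w o
      have e1 := momentum_post v w o
      have e2 : (post v w o + postStar v w o) i = (v + w) i := by rw [e1]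
      simpa using e2
  · refine h725_balance (c := 1) ?_ zero_le_one ?_ ?_ h
    · exact measurable_norm.pow_const 2
    · intro v
      rw [abs_of_nonneg (by positivity)]
      linarith
    · intro v w o
      exact energy_post v w o

theorem h725_cont {P : Par} {t m0 ε C : ℝ} (hε : 0 < ε) (ht : 0 < t)
    (h : ∀ s ∈ Icc (ε / 2 * t) (ε * t), ∃ L : ℝ → T3 → V → ℝ, IsRenormEntropySol (coldInf P) L ∧
      H725.Lossless C t (fun p => coldInf P p.1 p.2) (fun s p => L s p.1 p.2) ∧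
      ∫ p : T3 × V, L t p.1 p.2 * Theta P t m0 p = s) :
    H725.Continuum C t (fun p => coldInf P p.1 p.2) := by
  choose! L hL hl hm using h
  refine ⟨{p | Theta P t m0 p = 1}, ε / 2 * t, ε * t, fun m s p => L m s p.1 p.2,
    measurable_Theta P t m0 (measurableSet_singleton 1), by positivity, by nlinarith, ?_⟩
  intro m hmm
  have hmass : ∀ m ∈ Icc (ε / 2 * t) (ε * t),
      ∫ p in {p | Theta P t m0 p = 1}, L m t p.1 p.2 = m := fun m hmm => by
    rw [h119_mass P t m0 fun p => L m t p.1 p.2]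
    exact hm m hmm
  refine ⟨h725_sol (hL m hmm), hl m hmm, hmass m hmm, fun m' hmm' hne => ?_⟩
  have key : ¬ (fun p : T3 × V => L m t p.1 p.2) =ᵐ[volume] fun p => L m' t p.1 p.2 := by
    intro he
    apply hne
    rw [← hmass m hmm, ← hmass m' hmm']
    exact (integral_congr_ae (ae_restrict_of_ae he)).symm
  exact ⟨key, fun he => key (eq_of_ae_st (hL m hmm) (hL m' hmm') he ht.le)⟩

theorem h725_main : H725.LosslessContinuum := by
  obtain ⟨P, hP⟩ := h119_params (h725_family.and (Med.good_ev.and box_mass))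
  intro δ hδ
  have h1 := h119_small (P := P) (fun j hj => (hP j hj).2.1) (ENNReal.ofReal_pos.2 hδ)
  obtain ⟨j, hj1, hj⟩ := (h1.and (eventually_ge_atTop P.j0)).exists
  obtain ⟨⟨m0, ε, C, hm0, hε, hC, hev⟩, hG, hbox⟩ := hP j hj
  obtain ⟨τ, hτ, hsub⟩ := mem_nhdsGT_iff_exists_Ioo_subset.1 hev
  refine ⟨fun p => coldInf (h119_P P j) p.1 p.2, C + 4 * (h119_P P j).c, τ, hτ, hj1, ?_⟩
  intro t ht htτ
  refine h725_cont (m0 := m0) hε ht fun s hs => ?_
  obtain ⟨L, hL, hobs, h2, h3⟩ := hsub ⟨ht, htτ⟩ s hs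
  exact ⟨L, hL, h725_lossless hG hC hbox hL h2 h3, hobs⟩

end Vale.Agent.P140.NU
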