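import Vale.Agent.P140.H725.Ign

/-!
# P140: Gaussian moments of the solutions of the truncated problems, uniformly in all parameters
-/

set_option linter.all false

open MeasureTheory Set Filter
open scoped ENNReal Topology NNReal

noncomputable section

namespace Vale.Agent.P140.NU

/-- Gaussian weight -/
def gw (v : V) : ℝ≥0∞ := ENNReal.ofReal (Real.exp (‖v‖ ^ 2 / 32))

theorem measurable_gw : Measurable gw := by
  unfold gw
  apply ENNReal.measurable_ofReal.comp
  apply Continuous.measurable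
  fun_prop

theorem gw_le_mw (v : V) : gw v ≤ Gb.mw v := by
  unfold gw Gb.mw
  apply ENNReal.ofReal_le_ofReal
  have h1 : Real.exp (‖v‖ ^ 2 / 32) ≤ Real.exp (‖v‖ ^ 2 / 16) :=
    Real.exp_le_exp.2 (by linarith only [sq_nonneg ‖v‖])
  have h2 : 0 ≤ ‖v‖ := norm_nonneg v
  have h3 := Real.exp_pos (‖v‖ ^ 2 / 16)
  nlinarith only [h1, h2, h3, mul_nonneg h2 h3.le]

theorem gw_le_two {v : V} (h : ‖v‖ ^ 2 ≤ 5) : gw v ≤ 2 := by
  have h1 : Real.exp (‖v‖ ^ 2 / 32) ≤ 2 :=
    (Real.exp_le_exp.2 (by linarith only [h])).trans Gb.exp_nine_le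
  unfold gw
  refine (ENNReal.ofReal_le_ofReal h1).trans (le_of_eq ?_)
  norm_num

/-- the free cold gas -/
theorem gm_cf {P : Par} (hG : Med.Good P) {t0 : ℝ} (hS : CfS P t0) (hM : CfM P t0) {n : ℕ} {t : ℝ}
    (ht : t ∈ Icc 0 (2 * t0)) (x : T3) :
    ∫⁻ v, cf P n t x v * gw v ≤ ENNReal.ofReal (8 * P.c / P.w / (t + rr x)) := by
  have hw := hG.w_pos
  have hw1 : P.w ≤ 1 := hG.w_le.trans (by norm_num)
  have hc : 0 < P.c := lt_of_lt_of_le one_pos hG.hc
  by_cases hz : ∃ v, cf P n t x v ≠ 0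
  · obtain ⟨v0, hv0⟩ := hz
    obtain ⟨j, hj, hcell, -, -, -⟩ := hS n t ht x v0 hv0
    have h1 := hG.cell_pos hcell
    have hwt : 0 ≤ P.w * t := mul_nonneg hw.le ht.1
    have hr : 0 < rr x := by linarith only [h1, hwt]
    have ht0 := ht.1
    calc ∫⁻ v, cf P n t x v * gw v ≤ ∫⁻ v, cf P n t x v * 2 := by
          refine lintegral_mono fun v => ?_
          beta_reduce
          by_cases h0 : cf P n t x v = 0
          · rw [h0, zero_mul, zero_mul]
          · obtain ⟨i, hi, -, hb, -, -⟩ := hS n t ht x v h0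
            exact mul_le_mul' le_rfl (gw_le_two (Med.norm_sq_le_of_Box hG hb))
      _ = (∫⁻ v, cf P n t x v) * 2 := lintegral_mul_const' _ _ (by norm_num)
      _ ≤ ENNReal.ofReal ((1 + 1 / 1000) * P.c / rr x) * ENNReal.ofReal 2 := by
          refine mul_le_mul' (hM n t ht x) (le_of_eq ?_)
          norm_num
      _ = ENNReal.ofReal ((1 + 1 / 1000) * P.c / rr x * 2) := by
          rw [ENNReal.ofReal_mul (by positivity)]
      _ ≤ _ := by
          apply ENNReal.ofReal_le_ofReal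
          rw [div_div, div_mul_eq_mul_div, div_le_div_iff₀ hr (by positivity)]
          have h3 : P.w * (t + rr x) ≤ 2 * rr x := by
            nlinarith only [h1, hr, hw1, hw]
          calc (1 + 1 / 1000) * P.c * 2 * (P.w * (t + rr x))
              ≤ (1 + 1 / 1000) * P.c * 2 * (2 * rr x) := by gcongr
            _ ≤ 8 * P.c * rr x := by nlinarith only [mul_pos hc hr]
  · push Not at hz
    simp only [hz, zero_mul, lintegral_zero]
    exact zero_le

/-- the Gaussian profile -/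
theorem gm_Pi {P : Par} (n : ℕ) {t : ℝ} (hT : 0 < P.TT n t) (x : T3) :
    ∫⁻ v, Pi P n (1 / 8) t x v * gw v ≤
      ENNReal.ofReal (Real.exp 32 * Real.exp (-(2 * (rr x / P.TT n t))) * Gb.CMr) := by
  have hpt : ∀ v, Pi P n (1 / 8) t x v * gw v ≤
      ENNReal.ofReal (Real.exp 32 * Real.exp (-(2 * (rr x / P.TT n t)))) *
        (prof P (fun _ => 1) (1 / 8) t x v * Gb.mw v) := by
    intro v
    have h1 := bt_yy_ge hT x v
    have h2 : 0 ≤ ‖v‖ := norm_nonneg v
    have key : Real.exp (-(2 * yy P n t x v) - 1 / 8 * ‖v‖ ^ 2) * Real.exp (‖v‖ ^ 2 / 32) ≤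
        Real.exp 32 * Real.exp (-(2 * (rr x / P.TT n t))) *
          (Real.exp (-(1 / 8 * ‖v‖ ^ 2)) * ((1 + ‖v‖) * Real.exp (‖v‖ ^ 2 / 16))) := by
      rw [← Real.exp_add, ← Real.exp_add]
      have e1 : Real.exp (-(2 * yy P n t x v) - 1 / 8 * ‖v‖ ^ 2 + ‖v‖ ^ 2 / 32) ≤
          Real.exp (32 + -(2 * (rr x / P.TT n t)) + (-(1 / 8 * ‖v‖ ^ 2) + ‖v‖ ^ 2 / 16)) := by
        apply Real.exp_le_exp.2
        nlinarith only [h1, sq_nonneg (‖v‖ - 32)]
      refine e1.trans ?_
      rw [Real.exp_add (32 + -(2 * (rr x / P.TT n t)))]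
      refine mul_le_mul_of_nonneg_left ?_ (Real.exp_pos _).le
      rw [Real.exp_add]
      refine mul_le_mul_of_nonneg_left ?_ (Real.exp_pos _).le
      have := Real.exp_pos (‖v‖ ^ 2 / 16)
      nlinarith only [this, h2, mul_nonneg h2 this.le]
    unfold Pi prof gw Gb.mw
    rw [one_mul]
    calc ENNReal.ofReal (Real.exp (-(2 * yy P n t x v) - 1 / 8 * ‖v‖ ^ 2)) * WW P t x v *
          ENNReal.ofReal (Real.exp (‖v‖ ^ 2 / 32))
        = ENNReal.ofReal (Real.exp (-(2 * yy P n t x v) - 1 / 8 * ‖v‖ ^ 2) *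
            Real.exp (‖v‖ ^ 2 / 32)) * WW P t x v := by
          rw [ENNReal.ofReal_mul (Real.exp_pos _).le]; ring
      _ ≤ ENNReal.ofReal (Real.exp 32 * Real.exp (-(2 * (rr x / P.TT n t))) *
          (Real.exp (-(1 / 8 * ‖v‖ ^ 2)) * ((1 + ‖v‖) * Real.exp (‖v‖ ^ 2 / 16)))) * WW P t x v :=
          mul_le_mul' (ENNReal.ofReal_le_ofReal key) le_rfl
      _ = _ := by
          rw [ENNReal.ofReal_mul (p := Real.exp 32 * Real.exp (-(2 * (rr x / P.TT n t))))
            (by positivity), ENNReal.ofReal_mul (p := Real.exp (-(1 / 8 * ‖v‖ ^ 2)))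
            (Real.exp_pos _).le]
          ring
  calc ∫⁻ v, Pi P n (1 / 8) t x v * gw v
      ≤ ∫⁻ v, ENNReal.ofReal (Real.exp 32 * Real.exp (-(2 * (rr x / P.TT n t)))) *
        (prof P (fun _ => 1) (1 / 8) t x v * Gb.mw v) := lintegral_mono hpt
    _ = ENNReal.ofReal (Real.exp 32 * Real.exp (-(2 * (rr x / P.TT n t)))) *
        Gb.Mo (prof P (fun _ => 1) (1 / 8) t x) := lintegral_const_mul' _ _ ENNReal.ofReal_ne_top
    _ ≤ ENNReal.ofReal (Real.exp 32 * Real.exp (-(2 * (rr x / P.TT n t)))) *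
        ENNReal.ofReal Gb.CMr :=
        mul_le_mul' le_rfl (Gb.Mo_prof (fun _ => le_rfl) le_rfl t x)
    _ = _ := by rw [← ENNReal.ofReal_mul (by positivity)]

/-- Gaussian moments of the solutions of the truncated problems -/
theorem gm_main : EvP fun P => ∀ CB Cb : ℝ, 0 < CB → 0 < Cb → ∃ C : ℝ, 0 < C ∧
    ∀ᶠ t0 in 𝓝[>] (0 : ℝ), ∀ n N κ F G h, Split P CB t0 n N κ F G h →
    (∀ τ ∈ Icc 0 t0, ∀ x v, ENNReal.ofReal (h τ x v) ≤
        ENNReal.ofReal (Cb / P.TT n τ) * Pi P n (1 / 8) τ x v) →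
    ∀ t ∈ Ioc 0 t0, ∀ x, ∫⁻ v, ENNReal.ofReal (F t x v) * gw v ≤
      ENNReal.ofReal (C / (t + rr x)) := by
  refine (EvP.basic.and (Med.good_ev.and (evP_good.and (Gb.evP_kdOK.and
    (evP_CfS.and evP_CfM))))).mono ?_
  rintro P ⟨⟨hc, hl2, hl1, -, -, -, -⟩, hG, hP, hk, hS, hM⟩ CB Cb hCB hCb
  have hl0 : 0 < P.lam := by linarith only [hl2]
  have hw := hG.w_pos
  have hc0 : 0 < P.c := lt_of_lt_of_le one_pos hG.hc
  have hCM : 0 < Gb.CMr := lt_of_lt_of_le (by norm_num) Gb.CMr_ge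
  refine ⟨8 * P.c / P.w + 2 * (8 + CB * Gb.CMr) + Cb * (Real.exp 32 * Gb.CMr), by positivity, ?_⟩
  filter_upwards [hS, hM, small_t0_le (a := 1 / 100) (by norm_num)] with t0 hS hM ht0
  intro n N κ F G h hs hh t ht x
  have ht1 : t ∈ Icc 0 t0 := ⟨ht.1.le, ht.2⟩
  have ht2 : t ∈ Icc 0 (2 * t0) := ⟨ht.1.le, by linarith only [ht.1, ht.2]⟩
  have hT : 0 < P.TT n t := bt_TT_pos hc hl0 n ht1.1
  have hss : 0 < P.ss n := bt_ss_pos hc hl0 n
  have hr0 : 0 ≤ rr x := rr_nonneg x
  have hr1 : rr x ≤ 1 := bt_rr_le x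
  have htp := ht.1
  have hpos : 0 < t + rr x := by linarith only [htp, hr0]
  have b1 := gm_cf hG hS hM (n := n) ht2 x
  have b2 : ∫⁻ v, bf P n t x v * gw v ≤ ENNReal.ofReal 8 :=
    (lintegral_mono fun v => mul_le_mul' le_rfl (gw_le_mw v)).trans
      (Gb.Mo_bf hP hk ht0 hS ht2 x)
  have b3 : ∫⁻ v, ENNReal.ofReal CB * (Bb P t x v * gw v) ≤ ENNReal.ofReal (CB * Gb.CMr) := by
    rw [lintegral_const_mul' _ _ ENNReal.ofReal_ne_top, ENNReal.ofReal_mul hCB.le]
    exact mul_le_mul' le_rfl ((lintegral_mono fun v => mul_le_mul' le_rfl (gw_le_mw v)).trans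
      (Gb.Mo_Bb ht1.1 x))
  have b4 : ∫⁻ v, ENNReal.ofReal (Cb / P.TT n t) * (Pi P n (1 / 8) t x v * gw v) ≤
      ENNReal.ofReal (Cb * (Real.exp 32 * Gb.CMr) / (t + rr x)) := by
    rw [lintegral_const_mul' _ _ ENNReal.ofReal_ne_top]
    refine (mul_le_mul' le_rfl (gm_Pi n hT x)).trans ?_
    rw [← ENNReal.ofReal_mul (by positivity)]
    apply ENNReal.ofReal_le_ofReal
    have htT : t ≤ P.TT n t := by unfold Par.TT; linarith only [hss]
    have h1 : Real.exp (-(2 * (rr x / P.TT n t))) ≤ P.TT n t / (t + rr x) := by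
      rw [Real.exp_neg, inv_le_comm₀ (Real.exp_pos _) (by positivity), inv_div]
      have h2 := Real.add_one_le_exp (2 * (rr x / P.TT n t))
      refine le_trans ?_ h2
      rw [add_div]
      have h3 : t / P.TT n t ≤ 1 := by rw [div_le_one hT]; exact htT
      have h4 : 0 ≤ rr x / P.TT n t := div_nonneg hr0 hT.le
      linarith only [h3, h4]
    calc Cb / P.TT n t * (Real.exp 32 * Real.exp (-(2 * (rr x / P.TT n t))) * Gb.CMr)
        ≤ Cb / P.TT n t * (Real.exp 32 * (P.TT n t / (t + rr x)) * Gb.CMr) := by gcongr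
      _ = _ := by field_simp
  have hm1 : Measurable fun v => cf P n t x v * gw v := (measurable_cf1 P n t x).mul measurable_gw
  have hm2 : Measurable fun v => bf P n t x v * gw v := (Gb.meas_bf' n t x).mul measurable_gw
  have hm3 : Measurable fun v => ENNReal.ofReal CB * (Bb P t x v * gw v) :=
    ((Gb.meas_Bb' t x).mul measurable_gw).const_mul _
  calc ∫⁻ v, ENNReal.ofReal (F t x v) * gw v
      ≤ ∫⁻ v, (cf P n t x v * gw v + (bf P n t x v * gw v + (ENNReal.ofReal CB * (Bb P t x v * gw v)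
        + ENNReal.ofReal (Cb / P.TT n t) * (Pi P n (1 / 8) t x v * gw v)))) := by
        refine lintegral_mono fun v => ?_
        beta_reduce
        have h1 : ENNReal.ofReal (F t x v) ≤ (cf P n t x v + bf P n t x v +
            ENNReal.ofReal CB * Bb P t x v) +
            ENNReal.ofReal (Cb / P.TT n t) * Pi P n (1 / 8) t x v := by
          rw [hs.eq]
          exact ENNReal.ofReal_add_le.trans (add_le_add (hs.up t ht1 x v) (hh t ht1 x v))
        refine (mul_le_mul' h1 le_rfl).trans (le_of_eq ?_)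
        ring
    _ = (∫⁻ v, cf P n t x v * gw v) + ((∫⁻ v, bf P n t x v * gw v) +
        ((∫⁻ v, ENNReal.ofReal CB * (Bb P t x v * gw v)) +
        ∫⁻ v, ENNReal.ofReal (Cb / P.TT n t) * (Pi P n (1 / 8) t x v * gw v))) := by
        rw [lintegral_add_left hm1, lintegral_add_left hm2, lintegral_add_left hm3]
    _ ≤ ENNReal.ofReal (8 * P.c / P.w / (t + rr x)) + (ENNReal.ofReal 8 +
        (ENNReal.ofReal (CB * Gb.CMr) +
          ENNReal.ofReal (Cb * (Real.exp 32 * Gb.CMr) / (t + rr x)))) :=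
        add_le_add b1 (add_le_add b2 (add_le_add b3 b4))
    _ = ENNReal.ofReal (8 * P.c / P.w / (t + rr x) + (8 + (CB * Gb.CMr +
          Cb * (Real.exp 32 * Gb.CMr) / (t + rr x)))) := by
        rw [← ENNReal.ofReal_add (by positivity) (by positivity),
          ← ENNReal.ofReal_add (by positivity) (by positivity),
          ← ENNReal.ofReal_add (by positivity) (by positivity)]
    _ ≤ _ := by
        apply ENNReal.ofReal_le_ofReal
        have h2 : t + rr x ≤ 2 := by linarith only [hr1, ht.2, ht0]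
        have h3 : 8 + CB * Gb.CMr ≤ 2 * (8 + CB * Gb.CMr) / (t + rr x) := by
          rw [le_div_iff₀ hpos]
          have : 0 < 8 + CB * Gb.CMr := by positivity
          nlinarith only [this, h2]
        rw [add_div, add_div]
        linarith only [h3]

end Vale.Agent.P140.NU
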